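import Vale.Agent.P116.Pack.Koebe.Univ

/-!
P116 finite Koebe: a hole with a ring around it, parametrised by a fixed annulus, and the ways
such a collar is transported.
-/

noncomputable section

namespace Vale.Agent.P116.Pack.Koebe

open Set Filter Metric Function
open scoped Topology

/-- The half-closed annulus `1 < |ζ| ≤ τ`. -/
def capA (τ : ℝ) : Set ℂ := {ζ | 1 < ‖ζ‖ ∧ ‖ζ‖ ≤ τ}

/-- The hole together with its ring. -/
def nb (ρ : ℝ) (H : Set ℂ) (A : ℂ → ℂ) : Set ℂ := H ∪ A '' annu ρ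

/-- A compact hole `H` with a ring `A '' annu ρ` shrinking to it. -/
structure Collar (ρ : ℝ) (H : Set ℂ) (A : ℂ → ℂ) : Prop where
  compact : IsCompact H
  conf : ConfMap (annu ρ) A
  disj : Disjoint H (A '' annu ρ)
  isOpen : IsOpen (nb ρ H A)
  part : ∀ τ : ℝ, 1 < τ → τ < ρ → IsCompact (H ∪ A '' capA τ) ∧ IsOpen (H ∪ A '' annu τ)

lemma isOpen_annu (ρ : ℝ) : IsOpen (annu ρ) :=
  (isOpen_lt continuous_const continuous_norm).inter (isOpen_lt continuous_norm continuous_const)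

lemma annu_mono {a b : ℝ} (h : a ≤ b) : annu a ⊆ annu b := fun _ hz => ⟨hz.1, hz.2.trans_le h⟩

lemma capA_subset {a b : ℝ} (h : a < b) : capA a ⊆ annu b := fun _ hz => ⟨hz.1, hz.2.trans_lt h⟩

lemma annu_subset_capA (a : ℝ) : annu a ⊆ capA a := fun _ hz => ⟨hz.1, hz.2.le⟩

variable {ρ : ℝ} {H H' W : Set ℂ} {A P h : ℂ → ℂ}

lemma nb_image (P A : ℂ → ℂ) (ρ : ℝ) (H : Set ℂ) :
    nb ρ (P '' H) (fun ζ => P (A ζ)) = P '' nb ρ H A := by
  rw [nb, nb, image_union, image_image]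

lemma Collar.part_subset (_hC : Collar ρ H A) {τ : ℝ} (hτ : τ < ρ) :
    H ∪ A '' capA τ ⊆ nb ρ H A :=
  union_subset_union_right _ (image_mono (capA_subset hτ))

lemma Collar.image (hC : Collar ρ H A) (hW : IsOpen W) (hP : ConfMap W P)
    (hsub : nb ρ H A ⊆ W) : Collar ρ (P '' H) (fun ζ => P (A ζ)) where
  compact := hC.compact.image_of_continuousOn
    ((confMap_continuousOn hP).mono (subset_union_left.trans hsub))
  conf := confMap_comp hP hC.conf (isOpen_annu ρ) hW
    fun ζ hζ => hsub (Or.inr (mem_image_of_mem A hζ))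
  disj := by
    rw [← image_image P A]
    refine disjoint_image_image fun x hx y hy hxy => ?_
    exact disjoint_left.1 hC.disj hx (hP.1 (hsub (Or.inl hx)) (hsub (Or.inr hy)) hxy ▸ hy)
  isOpen := by
    rw [nb_image]
    exact confMap_isOpen_image (confMap_mono hP hsub) hC.isOpen
  part := fun τ hτ hτρ => by
    rw [← image_image P A, ← image_union, ← image_image P A, ← image_union]
    have h1 := (hC.part_subset hτρ).trans hsub
    refine ⟨(hC.part τ hτ hτρ).1.image_of_continuousOn ((confMap_continuousOn hP).mono h1), ?_⟩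
    exact confMap_isOpen_image
      (confMap_mono hP ((union_subset_union_right _ (image_mono (annu_subset_capA τ))).trans h1))
      (hC.part τ hτ hτρ).2

/-- An exterior map of `H` onto the exterior of `H'` transports collars of `H` to collars of `H'`. -/
lemma Collar.push (hAB : AreaBoundStmt) (hC : Collar ρ H A) (hh : IsExt Hᶜ h)
    (himg : h '' Hᶜ = H'ᶜ) (hH' : IsCompact H') : Collar ρ H' (fun ζ => h (A ζ)) := by
  have hring : A '' annu ρ ⊆ Hᶜ := fun z hz hzH => disjoint_left.1 hC.disj hzH hz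
  have hcompl : ∀ L : Set ℂ, H ⊆ L → H' ∪ h '' (L \ H) = (h '' Lᶜ)ᶜ := by
    intro L hL
    ext w
    constructor
    · rintro (hw | ⟨z, ⟨hz, hzH⟩, rfl⟩) ⟨z', hz', he⟩
      · have : h z' ∈ H'ᶜ := himg ▸ mem_image_of_mem h (fun hzH => hz' (hL hzH))
        exact this (he ▸ hw)
      · have := hh.injOn (fun hzH => hz' (hL hzH)) hzH he
        exact hz' (this ▸ hz)
    · intro hw
      by_cases hwH : w ∈ H'
      · exact Or.inl hwH
      obtain ⟨z, hz, rfl⟩ : w ∈ h '' Hᶜ := himg.symm ▸ hwH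
      exact Or.inr ⟨z, ⟨by_contra fun hzL => hw ⟨z, hzL, rfl⟩, hz⟩, rfl⟩
  have hopen : ∀ O : Set ℂ, IsOpen O → H ⊆ O → IsOpen (H' ∪ h '' (O \ H)) := by
    intro O hO hHO
    rw [hcompl O hHO, isOpen_compl_iff]
    refine isClosed_of_closure_subset fun w hw => ?_
    have hev := (isExt_tendsto_cocompact hh).eventually (eventually_le_norm (‖w‖ + 1))
    rw [← Metric.cobounded_eq_cocompact,
      (hasBasis_cobounded_compl_closedBall (0 : ℂ)).eventually_iff] at hev
    obtain ⟨M, -, hM⟩ := hev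
    have hcp : IsCompact (h '' (Oᶜ ∩ closedBall 0 M)) :=
      ((isCompact_closedBall 0 M).inter_left hO.isClosed_compl).image_of_continuousOn
        (hh.diff.continuousOn.mono (inter_subset_left.trans (compl_subset_compl.2 hHO)))
    refine image_mono inter_subset_left (hcp.isClosed.closure_subset ?_)
    refine mem_closure_iff.2 fun B hB hwB => ?_
    obtain ⟨u, ⟨huB, hu1⟩, z, hz, rfl⟩ :=
      mem_closure_iff.1 hw _ (hB.inter isOpen_ball) ⟨hwB, mem_ball_self one_pos⟩
    refine ⟨h z, huB, z, ⟨hz, by_contra fun hzM => ?_⟩, rfl⟩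
    have h1 := hM hzM
    rw [mem_ball, dist_eq_norm] at hu1
    linarith [norm_sub_norm_le (h z) w]
  have hcomp : ∀ L : Set ℂ, IsCompact L → H ⊆ L → IsCompact (H' ∪ h '' (L \ H)) := by
    intro L hL hHL
    refine Metric.isCompact_of_isClosed_isBounded ?_ ?_
    · rw [hcompl L hHL, isClosed_compl_iff]
      exact isOpen_image_of_injOn hL.isClosed.isOpen_compl
        (hh.diff.mono (compl_subset_compl.2 hHL)) (hh.injOn.mono (compl_subset_compl.2 hHL))
    · refine hH'.isBounded.union ?_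
      obtain ⟨R, hR, hUR⟩ := dom_exists_bound hh.dom
      obtain ⟨M, hM⟩ := hL.isBounded.subset_closedBall 0
      obtain ⟨C, hC1, hb⟩ := hAB
      refine (isBounded_closedBall (x := (0 : ℂ)) (r := C * (M + R))).subset ?_
      rintro _ ⟨z, hz, rfl⟩
      rw [mem_closedBall_zero_iff]
      refine ((hb Hᶜ h R hR hh hUR).2 z hz.2).trans
        (mul_le_mul_of_nonneg_left (add_le_add ?_ le_rfl) (by linarith))
      simpa using hM hz.1
  have hdiff : ∀ X : Set ℂ, X ⊆ annu ρ → (H ∪ A '' X) \ H = A '' X := fun X hX => by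
    rw [union_sdiff_left, sdiff_eq_left]
    exact (hC.disj.mono_right (image_mono hX)).symm
  refine ⟨hH', confMap_comp (confMap_of_diff hh.diff hh.injOn) hC.conf (isOpen_annu ρ)
    hh.dom.isOpen fun ζ hζ => hring ⟨ζ, hζ, rfl⟩, ?_, ?_, fun τ hτ hτρ => ?_⟩
  · refine disjoint_left.2 fun w hw hw' => ?_
    obtain ⟨ζ, hζ, rfl⟩ := hw'
    have : h (A ζ) ∈ H'ᶜ := himg ▸ mem_image_of_mem h (hring ⟨ζ, hζ, rfl⟩)
    exact this hw
  · have := hopen _ hC.isOpen subset_union_left
    rwa [nb, hdiff _ subset_rfl, image_image] at this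
  · obtain ⟨h1, h2⟩ := hC.part τ hτ hτρ
    have e1 := hcomp _ h1 subset_union_left
    have e2 := hopen _ h2 subset_union_left
    rw [hdiff _ (capA_subset hτρ), image_image] at e1
    rw [hdiff _ (annu_mono hτρ.le), image_image] at e2
    exact ⟨e1, e2⟩

lemma Collar.shrink (hC : Collar ρ H A) {σ : ℝ} (hσ : 1 < σ) (hσρ : σ ≤ ρ) : Collar σ H A where
  compact := hC.compact
  conf := confMap_mono hC.conf (annu_mono hσρ)
  disj := hC.disj.mono_right (image_mono (annu_mono hσρ))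
  isOpen := by
    rcases hσρ.eq_or_lt with e | hlt
    · rw [e]
      exact hC.isOpen
    · exact (hC.part σ hσ hlt).2
  part := fun τ hτ hτσ => hC.part τ hτ (hτσ.trans_le hσρ)

/-- The rings of a collar shrink to the hole. -/
lemma Collar.exists_subset (hC : Collar ρ H A) (hρ : 1 < ρ) {O : Set ℂ} (hO : IsOpen O)
    (hHO : H ⊆ O) : ∃ τ, 1 < τ ∧ τ < ρ ∧ H ∪ A '' capA τ ⊆ O := by
  by_contra hne
  push Not at hne
  set τ : ℕ → ℝ := fun k => 1 + (ρ - 1) / (k + 2) with hτdef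
  have hτ1 : ∀ k, 1 < τ k := fun k => lt_add_of_pos_right _ (div_pos (by linarith) (by positivity))
  have hτρ : ∀ k, τ k < ρ := fun k => by
    have : (ρ - 1) / (k + 2) < ρ - 1 := div_lt_self (by linarith) (by
      linarith [(Nat.cast_nonneg k : (0 : ℝ) ≤ k)])
    simp only [hτdef]
    linarith
  set L : ℕ → Set ℂ := fun k => (H ∪ A '' capA (τ k)) \ O with hL
  have hLc : ∀ k, IsCompact (L k) := fun k => (hC.part _ (hτ1 k) (hτρ k)).1.diff hO
  obtain ⟨z, hz⟩ := IsCompact.nonempty_iInter_of_sequence_nonempty_isCompact_isClosed L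
    (fun k => by
      refine sdiff_subset_sdiff_left (union_subset_union_right _ (image_mono fun ζ hζ => ?_))
      refine ⟨hζ.1, hζ.2.trans ?_⟩
      simp only [hτdef]
      gcongr
      linarith)
    (fun k => sdiff_nonempty.2 (hne _ (hτ1 k) (hτρ k))) (hLc 0) (fun k => (hLc k).isClosed)
  simp only [mem_iInter] at hz
  have hzH : z ∉ H := fun h => (hz 0).2 (hHO h)
  obtain ⟨ζ, hζ, rfl⟩ := (hz 0).1.resolve_left hzH
  have hle : ∀ k, ‖ζ‖ ≤ τ k := fun k => by
    obtain ⟨ξ, hξ, he⟩ := (hz k).1.resolve_left hzH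
    rw [← hC.conf.1 (capA_subset (hτρ k) hξ) (capA_subset (hτρ 0) hζ) he]
    exact hξ.2
  obtain ⟨k, hk⟩ := exists_nat_gt ((ρ - 1) / (‖ζ‖ - 1))
  have hpos : 0 < ‖ζ‖ - 1 := by linarith [hζ.1]
  rw [div_lt_iff₀ hpos] at hk
  have := hle k
  simp only [hτdef] at this
  have h2 : ‖ζ‖ - 1 ≤ (ρ - 1) / (k + 2) := by linarith
  rw [le_div_iff₀ (by positivity)] at h2
  nlinarith

/-- Near the hole, outside it, everything lies in the rings. -/
lemma Collar.eventually_mem (hC : Collar ρ H A) {τ : ℝ} (hτ : 1 < τ) (hτρ : τ < ρ) {p : ℂ}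
    (hp : p ∈ H) : ∀ᶠ z in 𝓝[Hᶜ] p, z ∈ A '' annu τ := by
  filter_upwards [mem_nhdsWithin_of_mem_nhds ((hC.part τ hτ hτρ).2.mem_nhds (Or.inl hp)),
    self_mem_nhdsWithin] with z hz hzH using hz.resolve_left hzH

/-- The round collar. -/
lemma collar_closedBall {ρ : ℝ} (c : ℂ) {r : ℝ} (hr : 0 < r) (hρ : 1 < ρ) :
    Collar ρ (closedBall c r) (fun ζ => c + r * ζ) := by
  have hd : ∀ ζ : ℂ, dist (c + r * ζ) c = r * ‖ζ‖ := fun ζ => by
    rw [dist_eq_norm, add_sub_cancel_left, norm_mul, Complex.norm_real, Real.norm_of_nonneg hr.le]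
  have hr' : (r : ℂ) ≠ 0 := by exact_mod_cast hr.ne'
  have hsurj : ∀ w : ℂ, ∃ ζ : ℂ, c + r * ζ = w := fun w => ⟨(w - c) / r, by field_simp; ring⟩
  have e1 : ∀ τ : ℝ, 1 < τ →
      closedBall c r ∪ (fun ζ => c + r * ζ) '' annu τ = ball c (r * τ) := by
    intro τ hτ
    ext w
    obtain ⟨ζ, rfl⟩ := hsurj w
    rw [mem_union, mem_closedBall, mem_ball, hd, mul_le_iff_le_one_right hr,
      mul_lt_mul_iff_right₀ hr,
      Injective.mem_set_image fun x y hxy => mul_left_cancel₀ hr' (add_left_cancel hxy)]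
    refine ⟨fun hζ => hζ.elim (fun h => h.trans_lt hτ) fun h => h.2, fun hζ => ?_⟩
    exact (le_or_gt ‖ζ‖ 1).imp id fun h => ⟨h, hζ⟩
  have e2 : ∀ τ : ℝ, 1 < τ →
      closedBall c r ∪ (fun ζ => c + r * ζ) '' capA τ = closedBall c (r * τ) := by
    intro τ hτ
    ext w
    obtain ⟨ζ, rfl⟩ := hsurj w
    rw [mem_union, mem_closedBall, mem_closedBall, hd, mul_le_iff_le_one_right hr,
      mul_le_mul_iff_right₀ hr,
      Injective.mem_set_image fun x y hxy => mul_left_cancel₀ hr' (add_left_cancel hxy)]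
    refine ⟨fun hζ => hζ.elim (fun h => h.trans hτ.le) fun h => h.2, fun hζ => ?_⟩
    exact (le_or_gt ‖ζ‖ 1).imp id fun h => ⟨h, hζ⟩
  refine ⟨isCompact_closedBall c r,
    confMap_of_diff ((differentiable_id.const_mul _).const_add c).differentiableOn
      (fun x _ y _ hxy => mul_left_cancel₀ hr' (add_left_cancel hxy)), ?_, ?_, fun τ hτ _ => ?_⟩
  · refine disjoint_left.2 fun w hw hw' => ?_
    obtain ⟨ζ, hζ, rfl⟩ := hw'
    rw [mem_closedBall, hd, mul_le_iff_le_one_right hr] at hw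
    linarith [hζ.1]
  · rw [nb, e1 ρ hρ]
    exact isOpen_ball
  · rw [e2 τ hτ, e1 τ hτ]
    exact ⟨isCompact_closedBall c _, isOpen_ball⟩

end Vale.Agent.P116.Pack.Koebe
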