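import Vale.Agent.P116.Pack.Koebe.Holes

/-!
P116 finite Koebe: the comparison of two late stages extends by iterated reflection off the holes
of a level, so the stages form a Cauchy sequence near infinity.
-/

noncomputable section

namespace Vale.Agent.P116.Pack.Koebe

open Set Filter Metric Function MeasureTheory
open scoped Topology ComplexConjugate BigOperators

variable {n : ℕ} {D : Init n}

/-- The union of the holes of a level. -/
def holes (D : Init n) (m t : ℕ) : Set ℂ := ⋃ w ∈ words n m, hole D w t

/-- The change of stage on the image of the domain. -/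
def trans (D : Init n) (s t : ℕ) : ℂ → ℂ := fun z => (seq D t).f (invFunOn (seq D s).f D.U z)

lemma trans_apply (D : Init n) (s t : ℕ) {x : ℂ} (hx : x ∈ D.U) :
    trans D s t ((seq D s).f x) = (seq D t).f x := by
  rw [trans, (seq D s).ext.injOn.leftInvOn_invFunOn hx]

lemma differentiableOn_trans (D : Init n) (s t : ℕ) :
    DifferentiableOn ℂ (trans D s t) ((seq D s).f '' D.U) := by
  refine (seq D t).ext.diff.comp (seq D s).inverse_ext.diff ?_
  rintro _ ⟨x, hx, rfl⟩
  rwa [(seq D s).ext.injOn.leftInvOn_invFunOn hx]

/-- The extension of the change of stage off the holes of level `m`. -/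
structure Extn (D : Init n) (m s t : ℕ) (M : ℂ → ℂ) : Prop where
  diff : DifferentiableOn ℂ M (holes D m s)ᶜ
  eqU : EqOn M (trans D s t) ((seq D s).f '' D.U)
  maps : ∀ j, ∀ z ∈ (seq D s).K j, z ∉ holes D m s → M z ∈ (seq D t).K j
  rings : ∀ w ∈ words n m, ∀ ζ ∈ annu D.ρ, M (ring D w s ζ) = ring D w t ζ

lemma tendsto_norm_inf_trans (D : Init n) (s t : ℕ) {M : ℂ → ℂ}
    (h : EqOn M (trans D s t) ((seq D s).f '' D.U)) :
    Tendsto (fun z => M z - z) (cocompact ℂ) (𝓝 0) := by
  have hinv := (seq D s).inverse_ext
  have := (((seq D t).ext.norm_inf.comp (isExt_tendsto_cocompact hinv)).add hinv.norm_inf)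
  rw [add_zero] at this
  refine this.congr' ?_
  filter_upwards [dom_eventually_mem hinv.dom] with z hz
  rw [h hz, trans, Function.comp_apply]
  ring

lemma tendsto_circInv_center {c : ℂ} {r : ℝ} (hr : 0 < r) :
    Tendsto (circInv c r) (𝓝[≠] c) (cocompact ℂ) := by
  have h0 : Tendsto (fun x => dist x c) (𝓝[≠] c) (𝓝[>] 0) :=
    tendsto_nhdsWithin_iff.2 ⟨tendsto_nhdsWithin_of_tendsto_nhds
      (by simpa using (continuous_id.dist continuous_const).tendsto c (f := fun x => dist x c)),
      by filter_upwards [self_mem_nhdsWithin] with x hx using dist_pos.2 hx⟩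
  have h1 : Tendsto (fun x => dist (circInv c r x) c) (𝓝[≠] c) atTop := by
    refine ((tendsto_inv_nhdsGT_zero.comp h0).const_mul_atTop (pow_pos hr 2)).congr fun x => ?_
    rw [dist_circInv, Function.comp_apply, div_eq_mul_inv]
  have h2 : Tendsto (fun x => ‖circInv c r x‖) (𝓝[≠] c) atTop :=
    tendsto_atTop_mono (fun x => by
      rw [dist_eq_norm]; linarith [norm_sub_le (circInv c r x) c])
      (tendsto_atTop_add_const_right _ (-‖c‖) h1)
  rw [← Metric.cobounded_eq_cocompact]
  exact tendsto_norm_atTop_iff_cobounded.1 h2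

lemma tendsto_circInv_cocompact (c : ℂ) (r : ℝ) :
    Tendsto (circInv c r) (cocompact ℂ) (𝓝 c) := by
  rw [tendsto_iff_dist_tendsto_zero]
  simp only [dist_circInv]
  refine Tendsto.const_div_atTop ?_ _
  refine tendsto_atTop_mono (fun z => (?_ : ‖z‖ + -‖c‖ ≤ dist z c))
    (tendsto_atTop_add_const_right _ _ tendsto_norm_cocompact_atTop)
  rw [dist_eq_norm]
  linarith [norm_sub_norm_le z c]

/-- Reflecting a holomorphic map in two circles gives a holomorphic map. -/
lemma differentiableAt_reflected {c c' x : ℂ} {r r' : ℝ} {M : ℂ → ℂ} (hx : x ≠ c)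
    (hM : DifferentiableAt ℂ M (circInv c r x)) (hne : M (circInv c r x) ≠ c') :
    DifferentiableAt ℂ (fun u => circInv c' r' (M (circInv c r u))) x := by
  have h1 : DifferentiableAt ℂ (fun y => conj (circInv c' r' (M y))) (circInv c r x) :=
    DifferentiableAt.comp (circInv c r x)
      (g := fun v => conj (circInv c' r' v)) (differentiableAt_conj_circInv hne) hM
  have h2 := h1.conj_conj.comp x (differentiableAt_conj_circInv (r := r) hx)
  simpa [Function.comp_def] using h2

/-- The reflection data at one component. -/
lemma exists_reflect (hRef : ReflectStmt) (D : Init n) {s t : ℕ} (hs : n ≤ s) (ht : n ≤ t)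
    (i : Fin n) :
    ∃ (W : Set ℂ) (Q : ℂ → ℂ), IsOpen W ∧ sphere (cen D s i) (rad D s i) ⊆ W ∧
      W ⊆ off (seq D (last s i + 1)).K i ∧ cen D s i ∉ W ∧ DifferentiableOn ℂ Q W ∧
      (∀ x ∈ W, rad D s i < dist x (cen D s i) →
        Q x = trans D (last s i + 1) (last t i + 1) x) ∧
      (∀ x ∈ W, dist x (cen D s i) < rad D s i →
        circInv (cen D s i) (rad D s i) x ∈ (seq D (last s i + 1)).f '' D.U ∧
        Q x = circInv (cen D t i) (rad D t i)
          (trans D (last s i + 1) (last t i + 1) (circInv (cen D s i) (rad D s i) x))) ∧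
      ∀ x ∈ sphere (cen D s i) (rad D s i), Q x ∈ sphere (cen D t i) (rad D t i) := by
  set a := last s i + 1
  set b := last t i + 1
  set c := cen D s i
  set r := rad D s i
  set c' := cen D t i
  set r' := rad D t i
  have hr : 0 < r := rad_pos D s i
  have hr' : 0 < r' := rad_pos D t i
  have hKa : (seq D a).K i = closedBall c r := K_disc hs i
  have hKb : (seq D b).K i = closedBall c' r' := K_disc ht i
  set V := off (seq D a).K i \ closedBall c (r / 2) with hV
  have hVo : IsOpen V := ((seq D a).off_isOpen i).sdiff isClosed_closedBall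
  have hsphV : sphere c r ⊆ V := fun x hx =>
    ⟨closedBall_subset_off hs i (sphere_subset_closedBall hx), by
      rw [mem_sphere] at hx; rw [mem_closedBall, hx]; linarith⟩
  have hVout : ∀ x ∈ V, r < dist x c → x ∈ (seq D a).f '' D.U := fun x hx hd =>
    (seq D a).mem_image_of_off hx.1 (by rw [hKa, mem_closedBall, not_le]; exact hd)
  have hout : ∀ x ∈ (seq D a).f '' D.U, r' < dist (trans D a b x) c' := by
    rintro _ ⟨u, hu, rfl⟩
    rw [trans_apply D a b hu]
    have := (seq D b).notMem_K hu i
    rwa [hKb, mem_closedBall, not_le] at this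
  obtain ⟨W, Q, hWo, hWs, hWV, hQd, hQ1, hQ2, hQ3⟩ := hRef c c' r r' V (trans D a b) hr hr' hVo
    hsphV ((differentiableOn_trans D a b).mono fun x hx =>
      hVout x hx.1 (not_le.1 hx.2))
    (fun x hx hd => hout x (hVout x hx hd))
    (fun p hp => by
      rw [Metric.tendsto_nhds]
      intro ε hε
      obtain ⟨τ, hτ, hτρ, hsub⟩ := ((seq D b).collar i).exists_subset D.one_lt
        (O := ball c' (r' + ε)) isOpen_ball (by
          rw [hKb]; exact closedBall_subset_ball (by linarith))
      have hev := ((seq D a).collar i).eventually_mem hτ hτρ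
        (hKa ▸ sphere_subset_closedBall hp)
      rw [hKa] at hev
      filter_upwards [hev] with z hz
      obtain ⟨ζ, hζ, rfl⟩ := hz
      have hU := D.col_mem i (annu_mono hτρ.le hζ)
      have h1 := hout _ ⟨_, hU, rfl⟩
      rw [trans_apply D a b hU] at h1 ⊢
      have h2 := hsub (Or.inr ⟨ζ, annu_subset_capA τ hζ, rfl⟩)
      rw [mem_ball] at h2
      rw [Real.dist_eq, abs_lt]
      constructor <;> linarith)
  refine ⟨W, Q, hWo, hWs, hWV.trans sdiff_subset, fun h => ?_, hQd, hQ1, fun x hx hd => ?_, hQ3⟩
  · exact (hWV h).2 (mem_closedBall_self (by linarith))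
  · obtain ⟨h1, h2⟩ := hQ2 x hx hd
    refine ⟨hVout _ h1 ((lt_dist_circInv hr ?_).2 hd), h2⟩
    intro e
    exact (hWV hx).2 (e ▸ mem_closedBall_self (by linarith))

/-- The extension of the change between two late stages. -/
lemma exists_extn (hRef : ReflectStmt) (D : Init n) :
    ∀ m s t : ℕ, n * m ≤ s → n * m ≤ t → ∃ M, Extn D m s t M := by
  classical
  intro m
  induction m with
  | zero =>
    intro s t _ _
    have e : (holes D 0 s)ᶜ = (seq D s).f '' D.U := by
      rw [← compl_compl ((seq D s).f '' D.U), (seq D s).compl, compl_inj_iff]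
      ext z
      simp only [holes, mem_iUnion]
      constructor
      · rintro ⟨w, hw, hz⟩
        obtain ⟨i, rfl⟩ := mem_words_zero.1 hw
        exact ⟨i, hz⟩
      · rintro ⟨i, hz⟩
        exact ⟨[i], mem_words_zero.2 ⟨i, rfl⟩, hz⟩
    refine ⟨trans D s t, e ▸ differentiableOn_trans D s t, fun _ _ => rfl,
      fun j z hz hn => absurd (mem_iUnion₂.2 ⟨[j], mem_words_zero.2 ⟨j, rfl⟩, hz⟩) hn, ?_⟩
    intro w hw ζ hζ
    obtain ⟨i, rfl⟩ := mem_words_zero.1 hw
    exact trans_apply D s t (D.col_mem i hζ)
  | succ m IH =>
    intro s t hs ht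
    have hms := fun i => le_last hs i
    have hmt := fun i => le_last ht i
    choose Mi hMi using fun i => IH (last s i + 1) (last t i + 1) (hms i).2 (hmt i).2
    choose W Q hWo hWs hWoff hWc hQd hQ1 hQ2 hQ3 using
      fun i => exists_reflect hRef D (hms i).1 (hmt i).1 i
    let R : Fin n → ℂ → ℂ := fun i x => if x = cen D s i then cen D t i else
      if dist x (cen D s i) < rad D s i then
        circInv (cen D t i) (rad D t i) (Mi i (circInv (cen D s i) (rad D s i) x))
      else Q i x
    let Φ : Fin n → ℂ → ℂ := fun i z =>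
      fto D t i (R i (invFunOn (fto D s i) (off (seq D (last s i + 1)).K i) z))
    let M : ℂ → ℂ := fun z =>
      if h : ∃ i, z ∈ (seq D s).K i then Φ h.choose z else trans D s t z
    have hMK : ∀ i z, z ∈ (seq D s).K i → M z = Φ i z := by
      intro i z hz
      have h : ∃ i, z ∈ (seq D s).K i := ⟨i, hz⟩
      have e : h.choose = i := by
        by_contra hne
        exact disjoint_left.1 ((seq D s).K_disj hne) h.choose_spec hz
      simp only [M, dif_pos h, e]
    have hMU : ∀ z ∈ (seq D s).f '' D.U, M z = trans D s t z := by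
      intro z hz
      have h : ¬ ∃ i, z ∈ (seq D s).K i := fun ⟨i, hi⟩ => (seq D s).mem_image_iff.1 hz i hi
      simp only [M, dif_neg h]
    have hleft : ∀ i x, x ∈ off (seq D (last s i + 1)).K i →
        Φ i (fto D s i x) = fto D t i (R i x) := fun i x hx => by
      simp only [Φ, (fto_prop (D := D) (hms i).1 i).2.1.leftInvOn_invFunOn hx]
    -- points outside the disc whose reflection is off the new holes
    have hnot : ∀ i x, x ≠ cen D s i → dist x (cen D s i) < rad D s i →
        fto D s i x ∉ holes D (m + 1) s →
        circInv (cen D s i) (rad D s i) x ∉ holes D m (last s i + 1) := by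
      intro i x hxc hxd hxh hy
      obtain ⟨w, hw, hyw⟩ := mem_iUnion₂.1 hy
      obtain ⟨j, v, rfl⟩ := exists_cons_of_mem_words hw
      have hfar := (lt_dist_circInv (rad_pos D s i) hxc).2 hxd
      by_cases hji : j = i
      · subst hji
        have hyD : circInv (cen D s j) (rad D s j) x ∈ (seq D (last s j + 1)).K j := by
          rcases Nat.eq_zero_or_pos m with rfl | hm
          · obtain ⟨k, hk⟩ := mem_words_zero.1 hw
            obtain ⟨rfl, rfl⟩ := List.cons_eq_cons.1 hk
            exact hyw
          · exact (word_prop (hms j).2 hw).2.2 hm (Or.inl hyw)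
        rw [K_disc (hms j).1 j, mem_closedBall] at hyD
        linarith
      · refine hxh (mem_iUnion₂.2 ⟨i :: j :: v, mem_words_succ.2 ⟨i, j, v, rfl, hji, hw⟩, ?_⟩)
        refine mem_image_of_mem _ ⟨_, hyw, ?_⟩
        exact circInv_circInv (rad_pos D s i) x
    have hMout : ∀ i y, rad D s i < dist y (cen D s i) → y ∉ holes D m (last s i + 1) →
        rad D t i < dist (Mi i y) (cen D t i) := by
      intro i y hy hyh
      have key : Mi i y ∉ (seq D (last t i + 1)).K i := by
        by_cases hU : y ∈ (seq D (last s i + 1)).f '' D.U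
        · rw [(hMi i).eqU hU]
          obtain ⟨u, hu, rfl⟩ := hU
          rw [trans_apply D _ _ hu]
          exact (seq D _).notMem_K hu i
        · rw [(seq D _).mem_image_iff] at hU
          push Not at hU
          obtain ⟨j, hj⟩ := hU
          have hji : j ≠ i := by
            rintro rfl
            rw [K_disc (hms j).1 j, mem_closedBall] at hj
            linarith
          exact disjoint_left.1 ((seq D _).K_disj hji) ((hMi i).maps j y hj hyh)
      rwa [K_disc (hmt i).1 i, mem_closedBall, not_le] at key
    have hRD : ∀ i x, x ∈ closedBall (cen D s i) (rad D s i) →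
        fto D s i x ∉ holes D (m + 1) s → R i x ∈ closedBall (cen D t i) (rad D t i) := by
      intro i x hx hxh
      by_cases hxc : x = cen D s i
      · simp only [R, if_pos hxc]
        exact mem_closedBall_self (rad_pos D t i).le
      by_cases hxd : dist x (cen D s i) < rad D s i
      · simp only [R, if_neg hxc, if_pos hxd]
        exact ball_subset_closedBall (circInv_mem_ball (rad_pos D t i)
          (hMout i _ ((lt_dist_circInv (rad_pos D s i) hxc).2 hxd) (hnot i x hxc hxd hxh)))
      · simp only [R, if_neg hxc, if_neg hxd]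
        exact sphere_subset_closedBall
          (hQ3 i x (mem_sphere.2 (le_antisymm (mem_closedBall.1 hx) (not_lt.1 hxd))))
    refine ⟨M, ?_, fun z hz => hMU z hz, ?_, ?_⟩
    · intro z hz
      refine DifferentiableAt.differentiableWithinAt ?_
      by_cases hzU : z ∈ (seq D s).f '' D.U
      · have ho := (seq D s).dom_image.isOpen.mem_nhds hzU
        exact ((differentiableOn_trans D s t).differentiableAt ho).congr_of_eventuallyEq
          (eventually_of_mem ho hMU)
      rw [(seq D s).mem_image_iff] at hzU
      push Not at hzU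
      obtain ⟨i, hzi⟩ := hzU
      obtain ⟨hFd, hFi, hFm, hFimg, hFc⟩ := fto_prop (D := D) (hms i).1 i
      obtain ⟨hGd, -, -, hGimg, hGc⟩ := fto_prop (D := D) (hmt i).1 i
      rw [← hFimg] at hzi
      obtain ⟨x, hx, rfl⟩ := hzi
      set a := last s i + 1 with ha
      set b := last t i + 1 with hb
      have hxoff := closedBall_subset_off (D := D) (hms i).1 i hx
      -- a neighbourhood of `x` on which the extension is given by one formula
      suffices h : ∃ O : Set ℂ, IsOpen O ∧ x ∈ O ∧ O ⊆ off (seq D a).K i ∧
          DifferentiableAt ℂ (R i) x ∧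
          ∀ u ∈ O, rad D s i < dist u (cen D s i) → R i u = trans D a b u by
        obtain ⟨O, hOo, hxO, hOsub, hRd, hOout⟩ := h
        have hOimg : fto D s i '' O ∈ 𝓝 (fto D s i x) :=
          (isOpen_image_of_injOn hOo (hFd.mono hOsub) (hFi.mono hOsub)).mem_nhds ⟨x, hxO, rfl⟩
        have hΦd : DifferentiableAt ℂ (Φ i) (fto D s i x) := by
          have h1 : DifferentiableAt ℂ (invFunOn (fto D s i) (off (seq D a).K i))
              (fto D s i x) :=
            (differentiableOn_invFunOn ((seq D a).off_isOpen i) hFd hFi).differentiableAt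
              (mem_of_superset hOimg (image_mono hOsub))
          have e := hFi.leftInvOn_invFunOn hxoff
          have h2 : DifferentiableAt ℂ (fto D t i) (R i x) :=
            hGd.differentiableAt (((seq D b).off_isOpen i).mem_nhds
              (closedBall_subset_off (hmt i).1 i (hRD i x hx hz)))
          have h3 : DifferentiableAt ℂ (fun u => fto D t i (R i u)) x := h2.comp x hRd
          rw [← e] at h3
          exact h3.comp (fto D s i x) h1
        refine hΦd.congr_of_eventuallyEq (eventually_of_mem hOimg ?_)
        rintro _ ⟨u, hu, rfl⟩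
        by_cases hud : dist u (cen D s i) ≤ rad D s i
        · exact hMK i _ (hFimg ▸ mem_image_of_mem _ (mem_closedBall.2 hud))
        · obtain ⟨v, hv, rfl⟩ := (seq D a).mem_image_of_off (hOsub hu)
            (by rw [K_disc (hms i).1 i, mem_closedBall]; exact hud)
          have e1 : fto D s i ((seq D a).f v) = (seq D s).f v := hFc hv
          have e2 : fto D t i ((seq D b).f v) = (seq D t).f v := hGc hv
          show M _ = Φ i _
          rw [hleft i _ (hOsub hu), hOout _ hu (not_le.1 hud), trans_apply D a b hv, e1,
            hMU _ ⟨v, hv, rfl⟩, trans_apply D s t hv, e2]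
      rcases (mem_closedBall.1 hx).lt_or_eq with hlt | heq
      · refine ⟨ball (cen D s i) (rad D s i), isOpen_ball, mem_ball.2 hlt,
          ball_subset_closedBall.trans (closedBall_subset_off (hms i).1 i), ?_,
          fun u hu hu' => absurd (mem_ball.1 hu) hu'.not_gt⟩
        set c := cen D s i with hc
        set r := rad D s i with hr
        set c' := cen D t i
        set r' := rad D t i
        have hrpos : 0 < r := rad_pos D s i
        have hform : ∀ u, u ≠ c → dist u c < r →
            R i =ᶠ[𝓝 u] fun v => circInv c' r' (Mi i (circInv c r v)) := by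
          intro u huc hud
          filter_upwards [isOpen_compl_singleton.mem_nhds huc,
            isOpen_ball.mem_nhds (mem_ball.2 hud)] with v hvc hvd
          simp only [R, ← hc, ← hr, if_neg (mem_compl_singleton_iff.1 hvc),
            if_pos (mem_ball.1 hvd)]
          rfl
        have hdiff : ∀ u, u ≠ c → dist u c < r → circInv c r u ∉ holes D m a →
            DifferentiableAt ℂ (R i) u := by
          intro u huc hud huh
          refine (differentiableAt_reflected huc ?_ ?_).congr_of_eventuallyEq (hform u huc hud)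
          · refine (hMi i).diff.differentiableAt (IsOpen.mem_nhds ?_ huh)
            refine IsClosed.isOpen_compl (self := ?_)
            refine (IsCompact.isClosed ?_)
            refine (words n m).isCompact_biUnion fun w hw => ?_
            obtain ⟨j, v, rfl⟩ := exists_cons_of_mem_words hw
            exact (word_prop (hms i).2 hw).1.compact
          · intro e
            have := hMout i _ ((lt_dist_circInv hrpos huc).2 hud) huh
            rw [e, dist_self] at this
            linarith [rad_pos D t i]
        by_cases hxc : x = c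
        · obtain ⟨Rb, -, -, hRb, -⟩ := exists_bound D
          have hev : ∀ᶠ u in 𝓝[≠] c, u ≠ c ∧ dist u c < r ∧ Rb < ‖circInv c r u‖ := by
            filter_upwards [self_mem_nhdsWithin,
              mem_nhdsWithin_of_mem_nhds (isOpen_ball.mem_nhds (mem_ball_self hrpos)),
              (tendsto_circInv_center hrpos).eventually (eventually_le_norm (Rb + 1))]
              with u h1 h2 h3 using ⟨h1, mem_ball.1 h2, by linarith⟩
          obtain ⟨O, hO, hOo, hcO⟩ :=
            _root_.eventually_nhds_iff.1 (eventually_nhdsWithin_iff.1 hev)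
          have hRc : R i c = c' := if_pos rfl
          have hd1 : DifferentiableOn ℂ (R i) (O \ {c}) := by
            rintro u ⟨hu, huc⟩
            obtain ⟨h1, h2, h3⟩ := hO u hu huc
            refine (hdiff u h1 h2 fun hy => ?_).differentiableWithinAt
            obtain ⟨w, hw, hyw⟩ := mem_iUnion₂.1 hy
            have := mem_closedBall_zero_iff.1 (nbW_subset_ball hRb (hms i).2 hw (Or.inl hyw))
            linarith
          have hcont : ContinuousAt (R i) c := by
            rw [continuousAt_iff_punctured_nhds, hRc]
            have hMc : Tendsto (Mi i) (cocompact ℂ) (cocompact ℂ) := by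
              have h := tendsto_norm_inf_trans D _ _ (hMi i).eqU
              have h1 : Tendsto (fun z => ‖Mi i z‖) (cocompact ℂ) atTop :=
                tendsto_atTop.2 fun L => by
                  filter_upwards [eventually_le_norm (L + 1),
                    h.eventually (ball_mem_nhds 0 one_pos)] with z hz1 hz2
                  rw [dist_zero_right] at hz2
                  linarith [norm_sub_norm_le z (Mi i z), norm_sub_rev z (Mi i z)]
              rw [← Metric.cobounded_eq_cocompact] at h1 ⊢
              exact tendsto_norm_atTop_iff_cobounded.1 h1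
            refine ((tendsto_circInv_cocompact c' r').comp
              (hMc.comp (tendsto_circInv_center hrpos))).congr' ?_
            filter_upwards [hev] with u hu
            simp only [R, ← hc, ← hr, if_neg hu.1, if_pos hu.2.1, Function.comp_apply]
            rfl
          rw [hxc]
          exact ((Complex.differentiableOn_compl_singleton_and_continuousAt_iff
            (hOo.mem_nhds hcO)).1 ⟨hd1, hcont⟩).differentiableAt (hOo.mem_nhds hcO)
        · exact hdiff x hxc hlt (hnot i x hxc hlt hz)
      · have hxW : x ∈ W i := hWs i (mem_sphere.2 heq)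
        have hRQ : ∀ u ∈ W i, R i u = Q i u := by
          intro u hu
          have huc : u ≠ cen D s i := fun e => hWc i (e ▸ hu)
          by_cases hud : dist u (cen D s i) < rad D s i
          · obtain ⟨h1, h2⟩ := hQ2 i u hu hud
            simp only [R, if_neg huc, if_pos hud]
            rw [h2, (hMi i).eqU h1]
          · simp only [R, if_neg huc, if_neg hud]
        refine ⟨W i, hWo i, hxW, hWoff i, ?_, fun u hu hud => by rw [hRQ u hu, hQ1 i u hu hud]⟩
        exact ((hQd i).differentiableAt ((hWo i).mem_nhds hxW)).congr_of_eventuallyEq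
          (eventually_of_mem ((hWo i).mem_nhds hxW) hRQ)
    · intro i z hz hzh
      rw [hMK i z hz]
      rw [← (fto_prop (D := D) (hms i).1 i).2.2.2.1] at hz
      obtain ⟨x, hx, rfl⟩ := hz
      rw [hleft i x (closedBall_subset_off (hms i).1 i hx), ← (fto_prop (D := D) (hmt i).1 i).2.2.2.1]
      exact mem_image_of_mem _ (hRD i x hx hzh)
    · intro w hw ζ hζ
      obtain ⟨i, j, v, rfl, hji, hv⟩ := mem_words_succ.1 hw
      set y := ring D (j :: v) (last s i + 1) ζ with hy
      have hyn : y ∈ nbW D (j :: v) (last s i + 1) := Or.inr ⟨ζ, hζ, rfl⟩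
      have hyD : rad D s i < dist y (cen D s i) := by
        by_contra h
        refine disjoint_left.1 ((seq D (last s i + 1)).disj hji) ((word_prop (hms i).2 hv).2.1 hyn)
          (Or.inl ?_)
        rw [K_disc (hms i).1 i]
        exact mem_closedBall.2 (not_lt.1 h)
      set x := circInv (cen D s i) (rad D s i) y with hxdef
      have hxb : x ∈ ball (cen D s i) (rad D s i) := circInv_mem_ball (rad_pos D s i) hyD
      have hxc : x ≠ cen D s i := circInv_ne (rad_pos D s i) fun e => by
        rw [e, dist_self] at hyD
        linarith [rad_pos D s i]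
      have hxz : ring D (i :: j :: v) s ζ = fto D s i x := rfl
      have hxK : fto D s i x ∈ (seq D s).K i := (fto_prop (D := D) (hms i).1 i).2.2.2.1 ▸
        mem_image_of_mem _ (ball_subset_closedBall hxb)
      rw [hxz, hMK i _ hxK,
        hleft i x (closedBall_subset_off (hms i).1 i (ball_subset_closedBall hxb))]
      simp only [R, if_neg hxc, if_pos (mem_ball.1 hxb)]
      rw [hxdef, circInv_circInv (rad_pos D s i), (hMi i).rings _ hv ζ hζ]
      rfl

/-- The stages are Cauchy near infinity. -/
lemma cauchy_near_infty (hRef : ReflectStmt) (hCut : CutBoundStmt) (D : Init n) :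
    ∃ R₂ : ℝ, ∀ ε : ℝ, 0 < ε → ∃ T : ℕ, ∀ s, T ≤ s → ∀ t, T ≤ t → ∀ x ∈ D.U, R₂ ≤ ‖x‖ →
      dist ((seq D t).f x) ((seq D s).f x) ≤ ε := by
  obtain ⟨R, R₂, hR, hball, hbig⟩ := exists_bound D
  obtain ⟨C, hC, hcut⟩ := hCut D.ρ D.one_lt
  refine ⟨R₂, fun ε hε => ?_⟩
  set V := (volume (closedBall (0 : ℂ) R)).toReal with hV
  have hV0 : 0 ≤ V := ENNReal.toReal_nonneg
  obtain ⟨N, hN⟩ := exists_nat_gt (C / R * (2 * V) / ε)
  have hN0 : (0 : ℝ) < N := lt_of_le_of_lt (by positivity) hN
  have hNpos : 0 < N := by exact_mod_cast hN0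
  refine ⟨n * N, fun s hs t ht x hx hxR => ?_⟩
  obtain ⟨m, hm, hle⟩ : ∃ m ∈ Finset.range N, sArea D m s + sArea D m t ≤ 2 * V / N := by
    refine Finset.exists_le_of_sum_le (Finset.nonempty_range_iff.2 hNpos.ne') ?_
    rw [Finset.sum_add_distrib, Finset.sum_const, Finset.card_range, nsmul_eq_mul]
    rw [mul_div_cancel₀ _ hN0.ne']
    linarith [sum_sArea_le hball hs, sum_sArea_le hball ht]
  have hmN : n * m ≤ n * N := Nat.mul_le_mul_left n (Finset.mem_range.1 hm).le
  obtain ⟨M, hM⟩ := exists_extn hRef D m s t (hmN.trans hs) (hmN.trans ht)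
  have hcols : ∀ {k : ℕ}, n * m ≤ k → ∀ w : {w // w ∈ words n m},
      Collar D.ρ (hole D w.1 k) (ring D w.1 k) := by
    rintro k hk ⟨w, hw⟩
    obtain ⟨j, v, rfl⟩ := exists_cons_of_mem_words hw
    exact (word_prop hk hw).1
  have key := hcut {w // w ∈ words n m} R (fun w => hole D w.1 s) (fun w => ring D w.1 s)
    (fun w => ring D w.1 t) M hR ?_ ?_ ?_ (tendsto_norm_inf_trans D s t hM.eqU)
    (fun w ζ hζ => hM.rings w.1 w.2 ζ hζ) ((seq D s).f x) (hbig s x hx hxR)
  · rw [hM.eqU ⟨x, hx, rfl⟩, trans_apply D s t hx] at key
    rw [dist_eq_norm]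
    refine key.trans ?_
    rw [Finset.univ_eq_attach, Finset.sum_attach (words n m)
      (fun w => (volume (ring D w s '' annu D.ρ)).toReal +
        (volume (ring D w t '' annu D.ρ)).toReal), Finset.sum_add_distrib]
    calc C / R * (sArea D m s + sArea D m t) ≤ C / R * (2 * V / N) :=
          mul_le_mul_of_nonneg_left hle (by positivity)
      _ ≤ ε := by
          rw [mul_div_assoc', div_le_iff₀ hN0]
          rw [div_lt_iff₀ hε] at hN
          linarith
  · intro w
    have hs' := hcols (hmN.trans hs) w
    exact ⟨hs'.compact, hs'.conf, (hcols (hmN.trans ht) w).conf,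
      isBounded_closedBall.subset (subset_union_right.trans
        (nbW_subset_ball hball (hmN.trans ht) w.2)), hs'.disj, hs'.isOpen,
      nbW_subset_ball hball (hmN.trans hs) w.2, hs'.part⟩
  · exact fun w w' hne => word_disjoint (hmN.trans hs) w.1 w.2 w'.1 w'.2
      fun e => hne (Subtype.ext e)
  · refine hM.diff.mono (compl_subset_compl.2 ?_)
    exact iUnion₂_subset fun w hw => subset_iUnion (fun w : {w // w ∈ words n m} => hole D w.1 s) ⟨w, hw⟩

end Vale.Agent.P116.Pack.Koebe
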