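import Vale.Agent.P116.Pack.Koebe.Stages

/-!
P116 finite Koebe: the holes of level `m` at a late stage, their rings, and the disjointness of
the rings over all levels.
-/

noncomputable section

namespace Vale.Agent.P116.Pack.Koebe

open Set Filter Metric Function MeasureTheory
open scoped Topology BigOperators

variable {n : ℕ} {D : Init n}

/-- The centre of the disc that replaced component `i` before stage `t`. -/
def cen (D : Init n) (t : ℕ) (i : Fin n) : ℂ := (stp D (last t i)).c

/-- The radius of the disc that replaced component `i` before stage `t`. -/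
def rad (D : Init n) (t : ℕ) (i : Fin n) : ℝ := (stp D (last t i)).r

/-- The roundings after the last one of component `i`, up to stage `t`. -/
def fto (D : Init n) (t : ℕ) (i : Fin n) : ℂ → ℂ :=
  comp D (last t i + 1) (t - (last t i + 1))

lemma rad_pos (D : Init n) (t : ℕ) (i : Fin n) : 0 < rad D t i := (stp D _).pos

lemma K_disc {t : ℕ} (ht : n ≤ t) (i : Fin n) :
    (seq D (last t i + 1)).K i = closedBall (cen D t i) (rad D t i) := by
  have h := K_round D (last t i)
  have e := congrArg (seq D (last t i + 1)).K (last_spec D ht i).2.2.1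
  exact e.symm.trans h

lemma fto_prop {t : ℕ} (ht : n ≤ t) (i : Fin n) :
    DifferentiableOn ℂ (fto D t i) (off (seq D (last t i + 1)).K i) ∧
    InjOn (fto D t i) (off (seq D (last t i + 1)).K i) ∧
    MapsTo (fto D t i) (off (seq D (last t i + 1)).K i) (off (seq D t).K i) ∧
    fto D t i '' closedBall (cen D t i) (rad D t i) = (seq D t).K i ∧
    EqOn (fun z => fto D t i ((seq D (last t i + 1)).f z)) (seq D t).f D.U := by
  obtain ⟨h1, -, -, h4⟩ := last_spec D ht i
  have e : last t i + 1 + (t - (last t i + 1)) = t := by omega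
  have P : CompProp D (last t i + 1) (t - (last t i + 1)) i :=
    compProp _ fun s hs hs' => h4 s hs (by omega)
  have h3 := P.maps
  have h5 := P.image
  have h6 := P.comm
  rw [e] at h3 h5 h6
  rw [K_disc ht i] at h5
  exact ⟨P.diff, P.injOn, h3, h5, h6⟩

lemma closedBall_subset_off {t : ℕ} (ht : n ≤ t) (i : Fin n) :
    closedBall (cen D t i) (rad D t i) ⊆ off (seq D (last t i + 1)).K i := by
  rw [← K_disc ht i]
  exact subset_union_left.trans ((seq D _).nb_subset_off i)

/-- The hole with a given word. -/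
def hole (D : Init n) : List (Fin n) → ℕ → Set ℂ
  | [], _ => ∅
  | [i], t => (seq D t).K i
  | i :: j :: w, t =>
    fto D t i '' (circInv (cen D t i) (rad D t i) '' hole D (j :: w) (last t i + 1))

/-- The parametrised ring around the hole with a given word. -/
def ring (D : Init n) : List (Fin n) → ℕ → ℂ → ℂ
  | [], _ => fun ζ => ζ
  | [i], t => fun ζ => (seq D t).f (D.col i ζ)
  | i :: j :: w, t => fun ζ =>
    fto D t i (circInv (cen D t i) (rad D t i) (ring D (j :: w) (last t i + 1) ζ))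

/-- The hole with its ring. -/
def nbW (D : Init n) (w : List (Fin n)) (t : ℕ) : Set ℂ := nb D.ρ (hole D w t) (ring D w t)

lemma nbW_single (i : Fin n) (t : ℕ) :
    nbW D [i] t = nb D.ρ ((seq D t).K i) (fun ζ => (seq D t).f (D.col i ζ)) := rfl

lemma nbW_cons (i j : Fin n) (w : List (Fin n)) (t : ℕ) :
    nbW D (i :: j :: w) t =
      fto D t i '' (circInv (cen D t i) (rad D t i) '' nbW D (j :: w) (last t i + 1)) := by
  simp only [nbW, hole, ring, nb_image (fto D t i), nb_image (circInv _ _)]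

/-- The words of level `m`. -/
def words (n : ℕ) : ℕ → Finset (List (Fin n))
  | 0 => Finset.univ.image fun i => [i]
  | m + 1 => ((Finset.univ ×ˢ words n m).filter fun p => p.2.head? ≠ some p.1).image
      fun p => p.1 :: p.2

lemma mem_words_zero {w : List (Fin n)} : w ∈ words n 0 ↔ ∃ i, w = [i] := by
  simp [words, eq_comm]

lemma exists_cons_of_mem_words : ∀ {m : ℕ} {w : List (Fin n)}, w ∈ words n m →
    ∃ i v, w = i :: v := by
  intro m w h
  cases m with
  | zero => obtain ⟨i, rfl⟩ := mem_words_zero.1 h; exact ⟨i, [], rfl⟩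
  | succ m =>
    simp only [words, Finset.mem_image] at h
    obtain ⟨p, -, rfl⟩ := h
    exact ⟨_, _, rfl⟩

lemma mem_words_succ {m : ℕ} {w : List (Fin n)} :
    w ∈ words n (m + 1) ↔ ∃ i j v, w = i :: j :: v ∧ j ≠ i ∧ j :: v ∈ words n m := by
  simp only [words, Finset.mem_image, Finset.mem_filter, Finset.mem_product, Finset.mem_univ,
    true_and]
  constructor
  · rintro ⟨⟨i, u⟩, ⟨hu, hne⟩, rfl⟩
    obtain ⟨j, v, rfl⟩ := exists_cons_of_mem_words hu
    exact ⟨i, j, v, rfl, by simpa using hne, hu⟩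
  · rintro ⟨i, j, v, rfl, hne, hv⟩
    exact ⟨(i, j :: v), ⟨hv, by simpa using hne⟩, rfl⟩

lemma le_last {m t : ℕ} (ht : n * (m + 1) ≤ t) (i : Fin n) :
    n ≤ t ∧ n * m ≤ last t i + 1 := by
  rw [Nat.mul_succ] at ht
  have hn : n ≤ t := by omega
  have hi := i.isLt
  have h1 := Nat.div_add_mod (t - 1 - i) n
  have h2 := Nat.mod_lt (t - 1 - i) (Nat.zero_lt_of_lt hi)
  exact ⟨hn, by unfold last; omega⟩

/-- Collars, and the position of deeper holes. -/
lemma word_prop : ∀ {m t : ℕ}, n * m ≤ t → ∀ {j : Fin n} {v : List (Fin n)},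
    j :: v ∈ words n m → Collar D.ρ (hole D (j :: v) t) (ring D (j :: v) t) ∧
      nbW D (j :: v) t ⊆ nbW D [j] t ∧ (0 < m → nbW D (j :: v) t ⊆ (seq D t).K j) := by
  intro m
  induction m with
  | zero =>
    intro t _ j v h
    obtain ⟨i, hi⟩ := mem_words_zero.1 h
    obtain ⟨rfl, rfl⟩ := List.cons_eq_cons.1 hi
    exact ⟨(seq D t).collar j, subset_rfl, fun h => absurd h (lt_irrefl 0)⟩
  | succ m IH =>
    intro t ht i v h
    obtain ⟨i', j, w, he, hji, hw⟩ := mem_words_succ.1 h
    obtain ⟨rfl, rfl⟩ := List.cons_eq_cons.1 he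
    obtain ⟨htn, hta⟩ := le_last ht i
    obtain ⟨hd, hinj, -, himg, -⟩ := fto_prop (D := D) htn i
    obtain ⟨hcol, hsub, -⟩ := IH hta hw
    set c := cen D t i
    set r := rad D t i
    have hr : 0 < r := rad_pos D t i
    have hout : nbW D (j :: w) (last t i + 1) ⊆ (closedBall c r)ᶜ := fun z hz hzb =>
      disjoint_left.1 ((seq D (last t i + 1)).disj hji) (hsub hz)
        (Or.inl (K_disc htn i ▸ hzb))
    have hne : nbW D (j :: w) (last t i + 1) ⊆ ({c}ᶜ : Set ℂ) := fun z hz hzc =>
      hout hz (by rw [mem_singleton_iff.1 hzc]; exact mem_closedBall_self hr.le)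
    have hin : circInv c r '' nbW D (j :: w) (last t i + 1) ⊆ closedBall c r := by
      rintro _ ⟨z, hz, rfl⟩
      exact ball_subset_closedBall (circInv_mem_ball hr (not_le.1 (hout hz)))
    have hc1 := hcol.image isOpen_compl_singleton (confMap_circInv hr) hne
    have hc2 := hc1.image ((seq D (last t i + 1)).off_isOpen i) (confMap_of_diff hd hinj)
      (by rw [nb_image]; exact hin.trans (closedBall_subset_off htn i))
    have hK : nbW D (i :: j :: w) t ⊆ (seq D t).K i := by
      rw [nbW_cons, ← himg]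
      exact image_mono hin
    exact ⟨hc2, hK.trans (by rw [nbW_single]; exact subset_union_left), fun _ => hK⟩

lemma word_disjoint : ∀ {m t : ℕ}, n * m ≤ t → ∀ w ∈ words n m, ∀ w' ∈ words n m, w ≠ w' →
    Disjoint (nbW D w t) (nbW D w' t) := by
  intro m
  induction m with
  | zero =>
    intro t _ w hw w' hw' hne
    obtain ⟨i, rfl⟩ := mem_words_zero.1 hw
    obtain ⟨j, rfl⟩ := mem_words_zero.1 hw'
    exact (seq D t).disj fun e => hne (by rw [e])
  | succ m IH =>
    intro t ht w hw w' hw' hne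
    obtain ⟨i, j, v, rfl, hji, hv⟩ := mem_words_succ.1 hw
    obtain ⟨i', j', v', rfl, hji', hv'⟩ := mem_words_succ.1 hw'
    by_cases hii : i = i'
    · subst hii
      obtain ⟨htn, hta⟩ := le_last ht i
      obtain ⟨-, hinj, -⟩ := fto_prop (D := D) htn i
      have hne' : j :: v ≠ j' :: v' := fun e => hne (by rw [e])
      have hd := IH hta _ hv _ hv' hne'
      rw [nbW_cons, nbW_cons]
      have hsub : ∀ u ∈ words n m, ∀ k u', u = k :: u' → k ≠ i →
          circInv (cen D t i) (rad D t i) '' nbW D u (last t i + 1) ⊆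
            off (seq D (last t i + 1)).K i := by
        rintro u hu k u' rfl hk _ ⟨z, hz, rfl⟩
        have hz' : z ∉ closedBall (cen D t i) (rad D t i) := fun hzb =>
          disjoint_left.1 ((seq D (last t i + 1)).disj hk) ((word_prop hta hu).2.1 hz)
            (Or.inl (K_disc htn i ▸ hzb))
        exact closedBall_subset_off htn i
          (ball_subset_closedBall (circInv_mem_ball (rad_pos D t i) (not_le.1 hz')))
      refine disjoint_image_image fun x hx y hy hxy => ?_
      have := hinj (hsub _ hv j v rfl hji hx) (hsub _ hv' j' v' rfl hji' hy) hxy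
      subst this
      exact disjoint_left.1
        ((disjoint_image_iff (injective_circInv (rad_pos D t i))).2 hd) hx hy
    · exact ((seq D t).disj hii).mono ((word_prop ht hw).2.1) ((word_prop ht hw').2.1)

/-- Each level lies in the holes of the level before. -/
lemma word_nested : ∀ {m t : ℕ}, n * (m + 1) ≤ t → ∀ w ∈ words n (m + 1), ∀ z ∈ nbW D w t,
    ∃ w' ∈ words n m, z ∈ hole D w' t := by
  intro m
  induction m with
  | zero =>
    intro t ht w hw z hz
    obtain ⟨i, j, v, rfl, -, -⟩ := mem_words_succ.1 hw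
    exact ⟨[i], mem_words_zero.2 ⟨i, rfl⟩, (word_prop ht hw).2.2 one_pos hz⟩
  | succ m IH =>
    intro t ht w hw z hz
    obtain ⟨i, j, v, rfl, hji, hv⟩ := mem_words_succ.1 hw
    obtain ⟨htn, hta⟩ := le_last ht i
    rw [nbW_cons] at hz
    obtain ⟨_, ⟨y, hy, rfl⟩, rfl⟩ := hz
    obtain ⟨w', hw', hyw'⟩ := IH hta _ hv y hy
    obtain ⟨j', v', rfl⟩ := exists_cons_of_mem_words hw'
    have hjj : j' = j := by
      by_contra hne
      refine disjoint_left.1 ((seq D (last t i + 1)).disj hne) ?_ ((word_prop hta hv).2.1 hy)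
      exact (word_prop (by rw [Nat.mul_succ] at hta; omega) hw').2.1 (Or.inl hyw')
    subst hjj
    refine ⟨i :: j' :: v', mem_words_succ.2 ⟨i, j', v', rfl, hji, hw'⟩, ?_⟩
    exact mem_image_of_mem _ (mem_image_of_mem _ hyw')

/-- Deep levels lie in the shallow holes. -/
lemma word_deep {t : ℕ} {m : ℕ} : ∀ {k : ℕ}, n * (m + k + 1) ≤ t → ∀ w ∈ words n (m + k + 1),
    ∀ z ∈ nbW D w t, ∃ w' ∈ words n m, z ∈ hole D w' t := by
  intro k
  induction k with
  | zero => exact fun ht w hw z hz => word_nested ht w hw z hz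
  | succ k IH =>
    intro ht w hw z hz
    obtain ⟨w', hw', hz'⟩ := word_nested ht w hw z hz
    exact IH (le_trans (Nat.mul_le_mul_left n (by omega)) ht) w' hw' z (Or.inl hz')

lemma nbW_subset_ball {R : ℝ}
    (hR : ∀ t j, nbW D [j] t ⊆ closedBall 0 R) {m t : ℕ} (ht : n * m ≤ t) {w : List (Fin n)}
    (hw : w ∈ words n m) : nbW D w t ⊆ closedBall 0 R := by
  obtain ⟨j, v, rfl⟩ := exists_cons_of_mem_words hw
  exact (word_prop ht hw).2.1.trans (hR t j)

/-- The area of the rings of level `m`. -/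
def sArea (D : Init n) (m t : ℕ) : ℝ :=
  ∑ w ∈ words n m, (volume (ring D w t '' annu D.ρ)).toReal

lemma sArea_nonneg (m t : ℕ) : 0 ≤ sArea D m t :=
  Finset.sum_nonneg fun _ _ => ENNReal.toReal_nonneg

/-- The rings of all levels below `M` are disjoint in a fixed disc. -/
lemma sum_sArea_le {R : ℝ} (hR : ∀ t j, nbW D [j] t ⊆ closedBall 0 R) {M t : ℕ}
    (ht : n * M ≤ t) :
    ∑ m ∈ Finset.range M, sArea D m t ≤ (volume (closedBall (0 : ℂ) R)).toReal := by
  simp only [sArea]
  rw [Finset.sum_sigma']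
  set P := (Finset.range M).sigma fun m => words n m
  have hle : ∀ p ∈ P, n * p.1 ≤ t := fun p hp => le_trans
    (Nat.mul_le_mul_left n (Finset.mem_range.1 (Finset.mem_sigma.1 hp).1).le) ht
  have hsub : ∀ p ∈ P, ring D p.2 t '' annu D.ρ ⊆ closedBall 0 R := fun p hp =>
    subset_union_right.trans (nbW_subset_ball hR (hle p hp) (Finset.mem_sigma.1 hp).2)
  have hfin : ∀ p ∈ P, volume (ring D p.2 t '' annu D.ρ) ≠ ⊤ := fun p hp =>
    ne_top_of_le_ne_top measure_closedBall_lt_top.ne (measure_mono (hsub p hp))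
  have hcollar : ∀ p ∈ P, Collar D.ρ (hole D p.2 t) (ring D p.2 t) := by
    rintro ⟨m, w⟩ hp
    have hw : w ∈ words n m := (Finset.mem_sigma.1 hp).2
    obtain ⟨j, v, rfl⟩ := exists_cons_of_mem_words hw
    exact (word_prop (hle _ hp) hw).1
  have hdisj : (↑P : Set ((_ : ℕ) × List (Fin n))).PairwiseDisjoint
      fun p => ring D p.2 t '' annu D.ρ := by
    have key : ∀ p ∈ P, ∀ q ∈ P, p.1 < q.1 →
        Disjoint (ring D p.2 t '' annu D.ρ) (ring D q.2 t '' annu D.ρ) := by
      rintro ⟨m, w⟩ hp ⟨m', w'⟩ hq hlt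
      have hw : w ∈ words n m := (Finset.mem_sigma.1 hp).2
      have hw' : w' ∈ words n m' := (Finset.mem_sigma.1 hq).2
      obtain ⟨k, rfl⟩ := Nat.exists_eq_add_of_lt hlt
      refine disjoint_left.2 fun z hz hz' => ?_
      obtain ⟨u, hu, hzu⟩ := word_deep (hle _ hq) w' hw' z (Or.inr hz')
      by_cases huw : u = w
      · exact disjoint_left.1 (hcollar _ hp).disj (huw ▸ hzu) hz
      · exact disjoint_left.1 (word_disjoint (hle _ hp) u hu w hw huw) (Or.inl hzu) (Or.inr hz)
    rintro ⟨m, w⟩ hp ⟨m', w'⟩ hq hne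
    rcases lt_trichotomy m m' with hlt | rfl | hgt
    · exact key _ hp _ hq hlt
    · exact (word_disjoint (hle _ hp) w (Finset.mem_sigma.1 hp).2 w' (Finset.mem_sigma.1 hq).2
        fun e => hne (by rw [e])).mono subset_union_right subset_union_right
    · exact (key _ hq _ hp hgt).symm
  rw [← ENNReal.toReal_sum hfin, ← measure_biUnion_finset hdisj fun p hp =>
    (confMap_isOpen_image (hcollar p hp).conf (isOpen_annu _)).measurableSet]
  exact ENNReal.toReal_mono measure_closedBall_lt_top.ne (measure_mono (iUnion₂_subset hsub))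

/-- Uniform bounds along the iteration. -/
lemma exists_bound (D : Init n) : ∃ R R₂ : ℝ, 0 < R ∧ (∀ t j, nbW D [j] t ⊆ closedBall 0 R) ∧
    ∀ t : ℕ, ∀ x ∈ D.U, R₂ ≤ ‖x‖ → 3 * R ≤ ‖(seq D t).f x‖ := by
  obtain ⟨R₁, hR₁⟩ := D.bdd
  obtain ⟨R₀, hR₀, hU⟩ := dom_exists_bound D.dom
  obtain ⟨C, hC, hb⟩ := D.area
  set S := max R₁ R₀ with hS
  have hS0 : 0 < S := lt_max_of_lt_right hR₀
  refine ⟨C * (S + S), C * (3 * (C * (S + S)) + C * R₀), by positivity, fun t j => ?_,
    fun t x hx hxR => ?_⟩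
  · have hbt := hb D.U (seq D t).f R₀ hR₀ (seq D t).ext hU
    rw [nbW_single]
    rintro z (hz | ⟨ζ, hζ, rfl⟩) <;> rw [mem_closedBall_zero_iff]
    · have := mem_closedBall_zero_iff.1 (hbt.1 ((seq D t).compl.symm ▸ mem_iUnion.2 ⟨j, hz⟩))
      nlinarith [le_max_right R₁ R₀]
    · refine (hbt.2 _ (D.col_mem j hζ)).trans (mul_le_mul_of_nonneg_left
        (add_le_add ?_ (le_max_right _ _)) (by linarith))
      exact le_trans (mem_closedBall_zero_iff.1 (hR₁ j (Or.inr ⟨ζ, hζ, rfl⟩))) (le_max_left _ _)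
  · have hinv := (hb _ _ (C * R₀) (by positivity) (seq D t).inverse_ext
      (hb D.U (seq D t).f R₀ hR₀ (seq D t).ext hU).1).2 _ ⟨x, hx, rfl⟩
    rw [(seq D t).ext.injOn.leftInvOn_invFunOn hx] at hinv
    have := le_of_mul_le_mul_left (hxR.trans hinv) (by linarith : (0 : ℝ) < C)
    linarith

end Vale.Agent.P116.Pack.Koebe
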