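import Vale.Agent.P116.Pack.Koebe.Compare

/-!
P116 finite Koebe: the limit of the stages maps the complementary continua to closed discs.
-/

noncomputable section

namespace Vale.Agent.P116.Pack.Koebe

open Set Filter Metric Function
open scoped Topology

variable {n : ℕ} {D : Init n}

lemma isPreconnected_exterior {R : ℝ} (hR : 0 < R) :
    IsPreconnected (closedBall (0 : ℂ) R)ᶜ := by
  have e : (closedBall (0 : ℂ) R)ᶜ =
      (fun p : ℝ × ℝ => circleMap 0 p.1 p.2) '' (Ioi R ×ˢ univ) := by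
    ext z
    simp only [mem_compl_iff, mem_closedBall, dist_zero_right, not_le, mem_image, mem_prod,
      mem_Ioi, mem_univ, and_true, Prod.exists]
    constructor
    · intro hz
      exact ⟨‖z‖, z.arg, hz, by simp [circleMap]⟩
    · rintro ⟨a, b, hab, rfl⟩
      simpa [circleMap, abs_of_pos (hR.trans hab)] using hab
  rw [e]
  refine ((isPreconnected_Ioi).prod isPreconnected_univ).image _ (Continuous.continuousOn ?_)
  unfold circleMap
  fun_prop

lemma isPreconnected_thickening {δ : ℝ} (hδ : 0 < δ) {S : Set ℂ} (hS : IsPreconnected S)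
    (hne : S.Nonempty) : IsPreconnected (thickening δ S) := by
  obtain ⟨w, hw⟩ := hne
  have e : thickening δ S = ⋃ x : S, (S ∪ ball (x : ℂ) δ) := by
    refine Subset.antisymm (fun z hz => ?_) (iUnion_subset fun x => union_subset
      (self_subset_thickening hδ S) fun z hz => mem_thickening_iff.2 ⟨x, x.2, hz⟩)
    obtain ⟨x, hx, hzx⟩ := mem_thickening_iff.1 hz
    exact mem_iUnion.2 ⟨⟨x, hx⟩, Or.inr hzx⟩
  rw [e]
  exact isPreconnected_iUnion ⟨w, mem_iInter.2 fun _ => Or.inl hw⟩ fun x =>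
    hS.union (x : ℂ) x.2 (mem_ball_self hδ) (convex_ball _ _).isPreconnected

lemma tlu_comp {U : Set ℂ} {F : ℕ → ℂ → ℂ} {f : ℂ → ℂ} (h : TendstoLocallyUniformlyOn F f atTop U)
    {s : ℕ → ℕ} (hs : Tendsto s atTop atTop) :
    TendstoLocallyUniformlyOn (fun k => F (s k)) f atTop U := fun u hu x hx => by
  obtain ⟨v, hv, he⟩ := h u hu x hx
  exact ⟨v, hv, hs.eventually he⟩

lemma comps_U (D : Init n) : comps D.Uᶜ = range D.E := by
  rw [D.compl]
  exact comps_iUnion (fun j => (D.collar j).compact) D.pre (fun j => (D.nontriv j).nonempty)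
    D.start.K_disj

lemma component_E (D : Init n) {j : Fin n} {q : ℂ} (hq : q ∈ D.E j) :
    q ∉ D.U ∧ connectedComponentIn D.Uᶜ q = D.E j := by
  constructor
  · exact fun h => (D.compl.symm ▸ mem_iUnion.2 ⟨j, hq⟩ : q ∈ D.Uᶜ) h
  · rw [D.compl]
    exact connectedComponentIn_iUnion (fun j => (D.collar j).compact) D.pre D.start.K_disj hq

/-- Points of the continua at the stages lie in the images of the points of the original ones. -/
lemma mem_img_stage (hC : ClusStmt) (S : St D) {j : Fin n} {v q : ℂ} (hv : v ∈ S.K j)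
    (hq : q ∈ D.E j) : v ∈ img D.U S.f q := by
  obtain ⟨h1, h2⟩ := component_E D hq
  exact Or.inr ⟨h1, by rw [h2, S.clus_eq hC j]; exact hv⟩

lemma bdd_K {R : ℝ} (hR : ∀ t j, nbW D [j] t ⊆ closedBall 0 R) (t : ℕ) (j : Fin n) :
    (seq D t).K j ⊆ closedBall 0 R := subset_union_left.trans (hR t j)

/-- The other continua are eventually near their limit sets. -/
lemma eventually_subset (hC : ClusStmt) (hL : LimitStmt) {φ : ℕ → ℕ} {f : ℂ → ℂ}
    (hf : TendstoLocallyUniformlyOn (fun k => (seq D (φ k)).f) f atTop D.U) (j : Fin n)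
    {O : Set ℂ} (hO : IsOpen O) (hsub : clus D.U f (D.E j) ⊆ O) :
    ∀ᶠ k in atTop, (seq D (φ k)).K j ⊆ O := by
  by_contra hne
  rw [not_eventually] at hne
  obtain ⟨ψ, hψ, hψ'⟩ := extraction_of_frequently_atTop hne
  have hex : ∀ k, ∃ v, v ∈ (seq D (φ (ψ k))).K j ∧ v ∉ O := fun k => not_subset.1 (hψ' k)
  choose v hv hvO using hex
  obtain ⟨R, -, -, hR, -⟩ := exists_bound D
  obtain ⟨a, -, σ, hσ, hlim⟩ := tendsto_subseq_of_bounded
    (isBounded_closedBall (x := (0 : ℂ)) (r := R)) fun k => bdd_K hR _ j (hv k)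
  obtain ⟨q, hq⟩ := (D.nontriv j).nonempty
  obtain ⟨-, hiff⟩ := hL D.U (fun _ => D.U) _ f D.dom (fun _ => subset_rfl)
    (fun k => (seq D (φ k)).ext) hf
  have ha : a ∈ clus D.U f (D.E j) :=
    (hiff (D.E j) (comps_U D ▸ mem_range_self j) a).2 ⟨ψ ∘ σ, fun _ => q, v ∘ σ, hψ.comp hσ,
      fun k => mem_img_stage hC _ (hv (σ k)) hq, ⟨q, hq, tendsto_const_nhds⟩, hlim⟩
  obtain ⟨k, hk⟩ := (hlim.eventually (hO.mem_nhds (hsub ha))).exists
  exact hvO (σ k) hk

/-- The limit disc lies in the cluster set. -/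
lemma disc_subset_clus (hC : ClusStmt) (hL : LimitStmt) (i : Fin n) {φ : ℕ → ℕ}
    {c : ℕ → ℂ} {r : ℕ → ℝ} {c₀ : ℂ} {r₀ : ℝ} {f : ℂ → ℂ} (hr0 : ∀ k, 0 ≤ r k)
    (hK : ∀ k, (seq D (φ k)).K i = closedBall (c k) (r k))
    (hc : Tendsto c atTop (𝓝 c₀)) (hr : Tendsto r atTop (𝓝 r₀))
    (hf : TendstoLocallyUniformlyOn (fun k => (seq D (φ k)).f) f atTop D.U) :
    closedBall c₀ r₀ ⊆ clus D.U f (D.E i) := by
  intro z hz
  obtain ⟨q, hq⟩ := (D.nontriv i).nonempty
  obtain ⟨-, hiff⟩ := hL D.U (fun _ => D.U) _ f D.dom (fun _ => subset_rfl)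
    (fun k => (seq D (φ k)).ext) hf
  have hr₀ : 0 ≤ r₀ := ge_of_tendsto' hr hr0
  have hz' : ‖z - c₀‖ ≤ r₀ := by rwa [mem_closedBall, dist_eq_norm] at hz
  refine (hiff _ (comps_U D ▸ mem_range_self i) z).2 ⟨id, fun _ => q,
    fun k => c k + (r k : ℂ) * ((z - c₀) / r₀), strictMono_id, fun k => ?_,
    ⟨q, hq, tendsto_const_nhds⟩, ?_⟩
  · refine mem_img_stage hC _ ?_ hq
    show _ ∈ (seq D (φ k)).K i
    rw [hK k, mem_closedBall, dist_eq_norm, add_sub_cancel_left, norm_mul, norm_div,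
      Complex.norm_real, Complex.norm_real, Real.norm_of_nonneg (hr0 k),
      Real.norm_of_nonneg hr₀]
    exact mul_le_of_le_one_right (hr0 k) (div_le_one_of_le₀ hz' hr₀)
  · have h := hc.add (((Complex.continuous_ofReal.tendsto r₀).comp hr).mul_const
      ((z - c₀) / r₀))
    have e : c₀ + (r₀ : ℂ) * ((z - c₀) / r₀) = z := by
      by_cases h0 : r₀ = 0
      · rw [h0, norm_le_zero_iff, sub_eq_zero] at hz'
        simp [h0, hz']
      · rw [mul_div_cancel₀ _ (Complex.ofReal_ne_zero.2 h0), add_sub_cancel]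
    rw [e] at h
    exact h

/-- A cluster value of the component `i` lies in the limit disc. -/
lemma mem_disc (hC : ClusStmt) (hL : LimitStmt) (hN : NormalStmt) (i : Fin n) {φ : ℕ → ℕ}
    {c : ℕ → ℂ} {r : ℕ → ℝ} {c₀ : ℂ} {r₀ : ℝ} {f : ℂ → ℂ} (hr0 : ∀ k, 0 ≤ r k)
    (hK : ∀ k, (seq D (φ k)).K i = closedBall (c k) (r k))
    (hc : Tendsto c atTop (𝓝 c₀)) (hr : Tendsto r atTop (𝓝 r₀))
    (hf : TendstoLocallyUniformlyOn (fun k => (seq D (φ k)).f) f atTop D.U)
    {p v : ℕ → ℂ} {q w : ℂ} (hv : ∀ k, v k ∈ img D.U (seq D (φ k)).f (p k)) (hq : q ∈ D.E i)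
    (hp : Tendsto p atTop (𝓝 q)) (hvw : Tendsto v atTop (𝓝 w))
    (hw : w ∈ clus D.U f (D.E i)) : w ∈ closedBall c₀ r₀ := by
  by_contra hwD
  obtain ⟨R, -, hRpos, hR, -⟩ := exists_bound D
  obtain ⟨hfe, -⟩ := hL D.U (fun _ => D.U) _ f D.dom (fun _ => subset_rfl)
    (fun k => (seq D (φ k)).ext) hf
  obtain ⟨hdom, hun, hcl⟩ := hC D.U f hfe
  have hmemE : ∀ j, D.E j ∈ comps D.Uᶜ := fun j => comps_U D ▸ mem_range_self j
  have hr₀ : 0 ≤ r₀ := ge_of_tendsto' hr hr0
  have hEne : ∀ j, j ≠ i → D.E j ≠ D.E i := fun j hj e =>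
    disjoint_left.1 (D.start.K_disj hj) (e ▸ hq : q ∈ D.E j) hq
  -- eventually the cluster value comes from points of the domain
  have hpU : ∀ᶠ k in atTop, p k ∈ D.U ∧ v k = (seq D (φ k)).f (p k) := by
    have h1 : ∀ᶠ k in atTop, p k ∈ off D.E i := hp.eventually
      ((D.start.off_isOpen i).mem_nhds (D.start.nb_subset_off i (Or.inl hq)))
    have h2 : ∀ᶠ k in atTop, r k < dist (v k) (c k) := by
      rw [mem_closedBall, not_le] at hwD
      exact hr.eventually_lt (hvw.dist hc) hwD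
    filter_upwards [h1, h2] with k hk1 hk2
    rcases hv k with ⟨hU, he⟩ | ⟨hU, hmem⟩
    · exact ⟨hU, he⟩
    · have hU' : p k ∈ D.Uᶜ := hU
      rw [D.compl] at hU'
      obtain ⟨j, hj⟩ := mem_iUnion.1 hU'
      have hji : j = i := by_contra fun hne => mem_off.1 hk1 j hne hj
      rw [(component_E D hj).2, hji, (seq D (φ k)).clus_eq hC i, hK k, mem_closedBall] at hmem
      linarith
  -- the limit set does not separate `w` from infinity
  set L := closedBall c₀ r₀ ∪ ⋃ j ∈ {j | j ≠ i}, clus D.U f (D.E j) with hLdef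
  have hLc : IsCompact L := (isCompact_closedBall c₀ r₀).union
    ((toFinite _).isCompact_biUnion fun j _ => (hcl _ (hmemE j)).2.1)
  have hwL : w ∈ Lᶜ := by
    rintro (h | h)
    · exact hwD h
    · obtain ⟨j, hj, hwj⟩ := mem_iUnion₂.1 h
      exact disjoint_left.1 ((hcl _ (hmemE j)).2.2.2 _ (hmemE i) (hEne j hj).symm) hwj hw
  set W := connectedComponentIn Lᶜ w with hW
  have hWo : IsOpen W := hLc.isClosed.isOpen_compl.connectedComponentIn
  have hWunb : ¬ W ⊆ closedBall 0 R := by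
    intro hsub
    have hWp : IsPreconnected W := isPreconnected_connectedComponentIn
    have hD : closedBall c₀ r₀ ⊆ (f '' D.U)ᶜ := fun z hz => hun.symm ▸
      mem_iUnion₂.2 ⟨_, hmemE i, disc_subset_clus hC hL i hr0 hK hc hr hf hz⟩
    have hLU : f '' D.U ⊆ Lᶜ := by
      intro z hz hzL
      rcases hzL with h | h
      · exact hD h hz
      · obtain ⟨j, -, hzj⟩ := mem_iUnion₂.1 h
        exact (hun.symm ▸ mem_iUnion₂.2 ⟨_, hmemE j, hzj⟩ : z ∈ (f '' D.U)ᶜ) hz
    have hWfU : Disjoint W (f '' D.U) := by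
      refine disjoint_left.2 fun z hzW hzU => ?_
      have h1 : f '' D.U ⊆ W := by
        have h2 := hdom.isPreconnected.subset_connectedComponentIn hzU hLU
        rwa [← connectedComponentIn_eq hzW] at h2
      obtain ⟨u, hu, huR⟩ :=
        ((dom_eventually_mem hdom).and (eventually_le_norm (R + 1))).exists
      linarith [mem_closedBall_zero_iff.1 (hsub (h1 hu))]
    have hWi : W ⊆ clus D.U f (D.E i) := by
      intro z hz
      have h1 : z ∈ (f '' D.U)ᶜ := fun h => disjoint_left.1 hWfU hz h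
      rw [hun, comps_U] at h1
      obtain ⟨X, ⟨j, rfl⟩, hzX⟩ := mem_iUnion₂.1 h1
      by_cases hj : j = i
      · exact hj ▸ hzX
      · exact absurd (Or.inr (mem_iUnion₂.2 ⟨j, hj, hzX⟩)) (connectedComponentIn_subset Lᶜ w hz)
    have hclos : closure W ∩ (closedBall c₀ r₀)ᶜ ⊆ W := by
      intro z hz
      by_contra hzW
      have hzi : z ∈ clus D.U f (D.E i) :=
        (hcl _ (hmemE i)).2.1.isClosed.closure_subset_iff.2 hWi hz.1
      have hzL : z ∈ Lᶜ := by
        rintro (h | h)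
        · exact hz.2 h
        · obtain ⟨j, hj, hzj⟩ := mem_iUnion₂.1 h
          exact disjoint_left.1 ((hcl _ (hmemE j)).2.2.2 _ (hmemE i) (hEne j hj).symm) hzj hzi
      obtain ⟨y, hy1, hy2⟩ := mem_closure_iff.1 hz.1 _
        hLc.isClosed.isOpen_compl.connectedComponentIn (mem_connectedComponentIn hzL)
      refine hzW ?_
      rw [hW, connectedComponentIn_eq hy2, ← connectedComponentIn_eq hy1]
      exact mem_connectedComponentIn hzL
    have hext : IsPreconnected (closedBall c₀ r₀)ᶜ := by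
      rcases hr₀.eq_or_lt with h0 | h0
      · rw [← h0, closedBall_zero]
        exact (isConnected_compl_singleton_of_one_lt_rank
          (by rw [Complex.rank_real_complex]; exact Nat.one_lt_ofNat) c₀).isPreconnected
      · have h := (isPreconnected_exterior h0).image (fun z => z + c₀) (by fun_prop)
        convert h using 1
        ext z
        simp [image_add_right, mem_closedBall, dist_eq_norm, sub_eq_add_neg]
    have hsub2 : (closedBall c₀ r₀)ᶜ ⊆ W := hext.subset_of_closure_inter_subset hWo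
      ⟨w, hwD, mem_connectedComponentIn hwL⟩ hclos
    obtain ⟨u, hu, huR⟩ := ((isCompact_closedBall c₀ r₀).compl_mem_cocompact
      |> fun h => (eventually_of_mem h fun x hx => hx : ∀ᶠ x in cocompact ℂ,
        x ∈ (closedBall c₀ r₀)ᶜ)).and (eventually_le_norm (R + 1)) |>.exists
    linarith [mem_closedBall_zero_iff.1 (hsub (hsub2 hu))]
  obtain ⟨P, hPW, hPR⟩ := not_subset.1 hWunb
  have hpath : JoinedIn W w P :=
    (IsOpen.isConnected_iff_isPathConnected hWo).1
      ⟨⟨w, mem_connectedComponentIn hwL⟩, isPreconnected_connectedComponentIn⟩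
      |>.joinedIn w (mem_connectedComponentIn hwL) P hPW
  obtain ⟨γ, hγ⟩ := hpath
  set G := range γ with hG
  have hGc : IsCompact G := isCompact_range γ.continuous
  have hwG : w ∈ G := ⟨0, γ.source⟩
  have hPG : P ∈ G := ⟨1, γ.target⟩
  have hGL : Disjoint G L := disjoint_left.2 fun z ⟨a, ha⟩ hz =>
    connectedComponentIn_subset Lᶜ w (hγ a) (ha ▸ hz)
  obtain ⟨δ, hδ, hdisj⟩ := hGL.exists_thickenings hGc hLc.isClosed
  set V := thickening δ G ∪ (closedBall 0 R)ᶜ with hV
  have hVd : Dom V := by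
    refine ⟨isOpen_thickening.union isClosed_closedBall.isOpen_compl, ?_, ?_⟩
    · refine IsPreconnected.union P (self_subset_thickening hδ G hPG) hPR ?_
        (isPreconnected_exterior hRpos)
      exact isPreconnected_thickening hδ (isPreconnected_range γ.continuous) ⟨w, hwG⟩
    · refine (isCompact_closedBall (0 : ℂ) R).of_isClosed_subset
        (isOpen_thickening.union isClosed_closedBall.isOpen_compl).isClosed_compl ?_
      intro z hz
      by_contra h
      exact hz (Or.inr h)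
  have hV' : ∀ᶠ k in atTop, V ⊆ (seq D (φ k)).f '' D.U := by
    have hthick : ∀ᶠ k in atTop, ∀ j, (seq D (φ k)).K j ⊆ thickening δ L := by
      rw [eventually_all]
      intro j
      by_cases hj : j = i
      · subst hj
        have h1 : ∀ᶠ k in atTop, dist (c k) c₀ < δ / 2 := hc.eventually (ball_mem_nhds _ (by positivity))
        have h2 : ∀ᶠ k in atTop, dist (r k) r₀ < δ / 2 := hr.eventually (ball_mem_nhds _ (by positivity))
        filter_upwards [h1, h2] with k hk1 hk2
        rw [hK k]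
        refine subset_trans ?_ (thickening_subset_of_subset δ subset_union_left)
        rw [thickening_closedBall hδ hr₀]
        intro z hz
        rw [mem_ball]
        rw [mem_closedBall] at hz
        rw [Real.dist_eq, abs_lt] at hk2
        linarith [dist_triangle z (c k) c₀]
      · exact eventually_subset hC hL hf j isOpen_thickening
          (subset_trans (subset_trans (subset_biUnion_of_mem
            (u := fun j => clus D.U f (D.E j)) hj) subset_union_right)
            (self_subset_thickening hδ L))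
    filter_upwards [hthick] with k hk z hz
    refine (seq D (φ k)).mem_image_iff.2 fun j hzj => ?_
    rcases hz with h | h
    · exact disjoint_left.1 hdisj h (hk j hzj)
    · exact h (bdd_K hR _ j hzj)
  obtain ⟨N, hN'⟩ := eventually_atTop.1 (hV'.and hpU)
  set ψ : ℕ → ℕ := fun k => φ (k + N) with hψ
  obtain ⟨σ, g, hσ, hg⟩ := hN V (fun k => (seq D (ψ k)).f '' D.U)
    (fun k => invFunOn (seq D (ψ k)).f D.U) hVd (fun k => (hN' (k + N) (by omega)).1)
    (fun k => (seq D (ψ k)).inverse_ext)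
  obtain ⟨hge, hgiff⟩ := hL V (fun k => (seq D (ψ (σ k))).f '' D.U)
    (fun k => invFunOn (seq D (ψ (σ k))).f D.U) g hVd (fun k => (hN' (σ k + N) (by omega)).1)
    (fun k => (seq D (ψ (σ k))).inverse_ext) hg
  have hshift : Tendsto (fun k => σ k + N) atTop atTop :=
    tendsto_atTop_mono (fun k => Nat.le_add_right _ _) hσ.tendsto_atTop
  have hwV : w ∈ V := Or.inl (self_subset_thickening hδ G hwG)
  have hgw : g w = q := by
    have h1 : Tendsto (fun k => invFunOn (seq D (ψ (σ k))).f D.U (v (σ k + N))) atTop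
        (𝓝 (g w)) := by
      refine hg.tendsto_comp (hge.diff.continuousOn w hwV) hwV ?_
      rw [hVd.isOpen.nhdsWithin_eq hwV]
      exact hvw.comp hshift
    refine tendsto_nhds_unique h1 ((hp.comp hshift).congr fun k => ?_)
    obtain ⟨hU, he⟩ := (hN' (σ k + N) (by omega)).2
    simp only [Function.comp_apply, hψ]
    rw [he, (seq D (φ (σ k + N))).ext.injOn.leftInvOn_invFunOn hU]
  have hc₀V : c₀ ∉ V := by
    rintro (h | h)
    · exact disjoint_left.1 hdisj h
        (self_subset_thickening hδ L (Or.inl (mem_closedBall_self hr₀)))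
    · refine h (isClosed_closedBall.mem_of_tendsto hc (Eventually.of_forall fun k => ?_))
      exact bdd_K hR (φ k) i ((hK k).symm ▸ mem_closedBall_self (hr0 k))
  have hX : connectedComponentIn Vᶜ c₀ ∈ comps Vᶜ := ⟨c₀, hc₀V, rfl⟩
  have hqclus : q ∈ clus V g (connectedComponentIn Vᶜ c₀) := by
    refine (hgiff _ hX q).2 ⟨id, fun k => c (σ k + N), fun _ => q, strictMono_id, fun k => ?_,
      ⟨c₀, mem_connectedComponentIn hc₀V, hc.comp hshift⟩, tendsto_const_nhds⟩
    simp only [id, hψ]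
    have hck : c (σ k + N) ∈ (seq D (φ (σ k + N))).K i :=
      (hK _).symm ▸ mem_closedBall_self (hr0 _)
    refine Or.inr ⟨fun h => (seq D _).mem_image_iff.1 h i hck, ?_⟩
    rw [(seq D (φ (σ k + N))).compl, connectedComponentIn_iUnion (seq D _).K_compact (seq D _).pre
      (seq D _).K_disj hck, (seq D _).clus_inv_eq hC i]
    exact hq
  have := (hC V g hge).2.1.symm ▸ mem_iUnion₂.2 ⟨_, hX, hqclus⟩
  exact (this : q ∈ (g '' V)ᶜ) ⟨w, hwV, hgw⟩

/-- The initial data of a finitely connected domain. -/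
lemma exists_init (hAB : AreaBoundStmt) (hRound : RoundStmt) {U : Set ℂ} (hU : Dom U)
    (hfin : (comps Uᶜ).Finite) (hnt : ∀ E ∈ comps Uᶜ, E.Nontrivial) (hne : Uᶜ.Nonempty) :
    ∃ (n : ℕ) (D : Init n), D.U = U := by
  classical
  have := hfin.fintype
  set n := Fintype.card (comps Uᶜ)
  let e := (Fintype.equivFin (comps Uᶜ)).symm
  let E : Fin n → Set ℂ := fun j => (e j : Set ℂ)
  have hE : ∀ j, E j ∈ comps Uᶜ := fun j => (e j).2
  have hpre : ∀ j, IsPreconnected (E j) := fun j => by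
    obtain ⟨x, -, hx⟩ := hE j
    exact hx ▸ isPreconnected_connectedComponentIn
  have hEne : ∀ j, (E j).Nonempty := fun j => (hnt _ (hE j)).nonempty
  have hEsub : ∀ j, E j ⊆ Uᶜ := fun j => by
    obtain ⟨x, -, hx⟩ := hE j
    exact hx ▸ connectedComponentIn_subset _ _
  have hEc : ∀ j, IsCompact (E j) := fun j => by
    obtain ⟨x, hx, hxe⟩ := hE j
    refine hU.compact_compl.of_isClosed_subset ?_ (hEsub j)
    rw [← hxe]
    refine isClosed_of_closure_subset ?_
    exact isPreconnected_connectedComponentIn.closure.subset_connectedComponentIn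
      (subset_closure (mem_connectedComponentIn hx))
      (closure_minimal (connectedComponentIn_subset _ _) hU.isOpen.isClosed_compl)
  have hEd : Pairwise fun i j => Disjoint (E i) (E j) := by
    intro i j hij
    refine disjoint_left.2 fun z hzi hzj => hij (e.injective (Subtype.ext ?_))
    obtain ⟨a, -, ha⟩ := hE i
    obtain ⟨b, -, hb⟩ := hE j
    show E i = E j
    rw [← ha] at hzi ⊢
    rw [← hb] at hzj ⊢
    exact (connectedComponentIn_eq hzi).trans (connectedComponentIn_eq hzj).symm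
  have hcompl : Uᶜ = ⋃ j, E j := by
    refine Subset.antisymm (fun x hx => ?_) (iUnion_subset hEsub)
    refine mem_iUnion.2 ⟨e.symm ⟨_, x, hx, rfl⟩, ?_⟩
    show x ∈ ((e (e.symm _) : comps Uᶜ) : Set ℂ)
    rw [Equiv.apply_symm_apply]
    exact mem_connectedComponentIn hx
  have hn : 0 < n := by
    obtain ⟨x, hx⟩ := hne
    obtain ⟨j, -⟩ := mem_iUnion.1 (hcompl ▸ hx)
    exact Nat.zero_lt_of_lt j.isLt
  have hchart : ∀ j, ∃ A : ℂ → ℂ, Collar 2 (E j) A := by
    intro j
    have hp := isPreconnected_compl_piece hEc hpre hEne hEd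
      (by rw [← hcompl, compl_compl]; exact hU.isPreconnected) j
    obtain ⟨h, c, r, hr, hext, himg⟩ :=
      hRound (E j) (hEc j) ⟨hEne j, hpre j⟩ (hnt _ (hE j)) hp
    have hd : Dom (h '' (E j)ᶜ) := by
      refine ⟨himg ▸ isClosed_closedBall.isOpen_compl, hp.image h hext.diff.continuousOn, ?_⟩
      rw [himg, compl_compl]
      exact isCompact_closedBall c r
    have hg := isExt_inverse hAB hext hd
    rw [himg] at hg
    refine ⟨_, (collar_closedBall c hr one_lt_two).push hAB hg ?_ (hEc j)⟩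
    rw [← himg, image_image]
    exact (image_congr fun x hx => hext.injOn.leftInvOn_invFunOn hx).trans (image_id' _)
  choose A hA using hchart
  let O : Fin n → Set ℂ := fun j =>
    ⋂ k ∈ {k | k ≠ j}, {z | infDist z (E j) < infDist z (E k)}
  have hOo : ∀ j, IsOpen (O j) := fun j => (toFinite _).isOpen_biInter fun k _ =>
    isOpen_lt (continuous_infDist_pt _) (continuous_infDist_pt _)
  have hEO : ∀ j, E j ⊆ O j := fun j z hz => mem_iInter₂.2 fun k hk => by
    show infDist z (E j) < infDist z (E k)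
    rw [infDist_zero_of_mem hz]
    exact ((hEc k).isClosed.notMem_iff_infDist_pos (hEne k)).1
      fun h => disjoint_left.1 (hEd hk) h hz
  have hOd : Pairwise fun i j => Disjoint (O i) (O j) := fun i j hij =>
    disjoint_left.2 fun z hzi hzj => lt_irrefl (infDist z (E i))
      (((mem_iInter₂.1 hzi) j hij.symm : infDist z (E i) < infDist z (E j)).trans
        ((mem_iInter₂.1 hzj) i hij))
  choose τ hτ hτ2 hτO using fun j => (hA j).exists_subset one_lt_two (hOo j) (hEO j)
  have hne' : (Finset.univ : Finset (Fin n)).Nonempty := ⟨⟨0, hn⟩, Finset.mem_univ _⟩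
  set ρ := Finset.univ.inf' hne' τ with hρ
  have hρτ : ∀ j, ρ ≤ τ j := fun j => Finset.inf'_le τ (Finset.mem_univ j)
  have hρ1 : 1 < ρ := (Finset.lt_inf'_iff hne').2 fun j _ => hτ j
  have hsub : ∀ j, nb ρ (E j) (A j) ⊆ E j ∪ A j '' capA (τ j) := fun j =>
    union_subset_union_right _ (image_mono ((annu_mono (hρτ j)).trans (annu_subset_capA _)))
  have hcol : ∀ j, Collar ρ (E j) (A j) := fun j =>
    (hA j).shrink hρ1 ((hρτ j).trans (hτ2 j).le)
  refine ⟨n, ⟨U, E, A, ρ, hn, hU, hcompl, hρ1, hcol, fun j ζ hζ => ?_, hpre,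
    fun j => hnt _ (hE j), fun i j hij => (hOd hij).mono ((hsub i).trans (hτO i))
      ((hsub j).trans (hτO j)), ?_, hAB, hRound⟩, rfl⟩
  · by_contra hU'
    obtain ⟨k, hk⟩ := mem_iUnion.1 (hcompl ▸ hU' : A j ζ ∈ ⋃ k, E k)
    by_cases hkj : k = j
    · exact disjoint_left.1 (hcol j).disj (hkj ▸ hk) ⟨ζ, hζ, rfl⟩
    · exact disjoint_left.1 (hOd hkj) (hEO k hk) (hτO j (hsub j (Or.inr ⟨ζ, hζ, rfl⟩)))
  · obtain ⟨R, hR⟩ := (isCompact_iUnion fun j =>
      ((hA j).part _ (hτ j) (hτ2 j)).1).isBounded.subset_closedBall 0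
    exact ⟨R, fun j => (hsub j).trans ((subset_iUnion (fun j => E j ∪ A j '' capA (τ j)) j).trans hR)⟩

/-- Koebe's theorem for finitely many continua. -/
theorem finiteKoebe (hRound : RoundStmt) (hRef : ReflectStmt) (hCut : CutBoundStmt)
    (hC : ClusStmt) (hL : LimitStmt) (hN : NormalStmt) (hAB : AreaBoundStmt) :
    FiniteKoebeStmt := by
  intro U hU hfin hnt
  rcases eq_empty_or_nonempty Uᶜ with h0 | hne
  · refine ⟨fun z => z, ⟨hU, differentiableOn_id, fun _ _ _ _ h => h, by simp⟩, ?_⟩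
    rintro E ⟨x, hx, -⟩
    rw [h0] at hx
    exact hx.elim
  obtain ⟨n, D, rfl⟩ := exists_init hAB hRound hU hfin hnt hne
  let u : Fin n → ℕ → ℕ := fun i k => i + n * (k + 1)
  have hidx : ∀ i k, D.idx (u i k) = i := fun i k => Fin.ext (by
    show ((i : ℕ) + n * (k + 1)) % n = i
    rw [Nat.add_mul_mod_self_left, Nat.mod_eq_of_lt i.isLt])
  have hdisc : ∀ i k, (seq D (u i k + 1)).K i =
      closedBall (stp D (u i k)).c (stp D (u i k)).r := fun i k =>
    (congrArg (seq D (u i k + 1)).K (hidx i k)).symm.trans (K_round D (u i k))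
  choose s F hs hF using fun i => hN D.U (fun _ => D.U) (fun k => (seq D (u i k + 1)).f) D.dom
    (fun _ => subset_rfl) (fun k => (seq D _).ext)
  have hFe : ∀ i, IsExt D.U (F i) := fun i =>
    (hL D.U (fun _ => D.U) _ (F i) D.dom (fun _ => subset_rfl) (fun k => (seq D _).ext) (hF i)).1
  have hgrow : ∀ i, Tendsto (fun k => u i (s i k) + 1) atTop atTop := fun i =>
    tendsto_atTop_mono (fun k => by
      have h := (hs i).id_le k
      have := Nat.le_mul_of_pos_left (s i k + 1) D.hn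
      simp only [u, id_eq] at *
      omega) tendsto_id
  obtain ⟨R₂, hR₂⟩ := cauchy_near_infty hRef hCut D
  have hagree : ∀ i j, EqOn (F i) (F j) D.U := by
    intro i j
    obtain ⟨x, hxU, hx⟩ :=
      ((dom_eventually_mem D.dom).and (eventually_le_norm (R₂ + 1))).exists
    refine ((hFe i).diff.analyticOnNhd D.dom.isOpen).eqOn_of_preconnected_of_eventuallyEq
      ((hFe j).diff.analyticOnNhd D.dom.isOpen) D.dom.isPreconnected hxU ?_
    filter_upwards [D.dom.isOpen.mem_nhds hxU,
      continuous_norm.continuousAt.eventually (lt_mem_nhds (show R₂ < ‖x‖ by linarith))]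
      with z hz hzR
    refine eq_of_forall_dist_le fun ε hε => ?_
    obtain ⟨T, hT⟩ := hR₂ ε hε
    refine le_of_tendsto (((hF i).tendsto_at hz).dist ((hF j).tendsto_at hz)) ?_
    filter_upwards [(hgrow i).eventually (eventually_ge_atTop T),
      (hgrow j).eventually (eventually_ge_atTop T)] with k hk1 hk2
    exact hT _ hk2 _ hk1 z hz hzR.le
  let i₀ : Fin n := ⟨0, D.hn⟩
  refine ⟨F i₀, hFe i₀, ?_⟩
  rw [comps_U]
  rintro _ ⟨i, rfl⟩
  have hFi : TendstoLocallyUniformlyOn (fun k => (seq D (u i (s i k) + 1)).f) (F i₀) atTop D.U :=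
    (hF i).congr_right (hagree i i₀)
  obtain ⟨R, -, -, hR, -⟩ := exists_bound D
  set cs : ℕ → ℂ := fun k => (stp D (u i (s i k))).c with hcs
  set rs : ℕ → ℝ := fun k => (stp D (u i (s i k))).r with hrs
  have hrpos : ∀ k, 0 < rs k := fun k => (stp D _).pos
  have hbd : ∀ k, (cs k, rs k) ∈ closedBall (0 : ℂ) R ×ˢ Icc 0 (2 * R) := by
    intro k
    have hsub : closedBall (cs k) (rs k) ⊆ closedBall 0 R :=
      hdisc i (s i k) ▸ bdd_K hR _ i
    refine ⟨hsub (mem_closedBall_self (hrpos k).le), (hrpos k).le, ?_⟩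
    have h1 := mem_closedBall_zero_iff.1 (hsub (mem_closedBall_self (hrpos k).le))
    have h2 := mem_closedBall_zero_iff.1 (hsub (show cs k + rs k ∈ closedBall (cs k) (rs k) by
      simp [dist_eq_norm, abs_of_pos (hrpos k)]))
    have h3 : rs k = ‖(cs k + rs k) - cs k‖ := by simp [abs_of_pos (hrpos k)]
    linarith [norm_sub_le (cs k + rs k) (cs k)]
  obtain ⟨⟨c₀, r₀⟩, -, σ, hσ, hlim⟩ :=
    tendsto_subseq_of_bounded ((isCompact_closedBall _ _).prod isCompact_Icc).isBounded hbd
  have hc : Tendsto (fun k => cs (σ k)) atTop (𝓝 c₀) := (continuous_fst.tendsto _).comp hlim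
  have hr : Tendsto (fun k => rs (σ k)) atTop (𝓝 r₀) := (continuous_snd.tendsto _).comp hlim
  have hr₀ : 0 ≤ r₀ := ge_of_tendsto' hr fun k => (hrpos _).le
  have hFσ := tlu_comp hFi hσ.tendsto_atTop
  obtain ⟨-, hiff⟩ := hL D.U (fun _ => D.U) _ (F i₀) D.dom (fun _ => subset_rfl)
    (fun k => (seq D _).ext) hFσ
  have hEi : D.E i ∈ comps D.Uᶜ := comps_U D ▸ mem_range_self i
  refine ⟨c₀, r₀, hr₀, Subset.antisymm (fun w hw => ?_) fun w hw => ?_⟩
  · obtain ⟨a, p, v, ha, hv, ⟨q, hq, hp⟩, hvw⟩ := (hiff _ hEi w).1 hw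
    exact mem_disc hC hL hN i (φ := fun k => u i (s i (σ (a k))) + 1)
      (c := fun k => cs (σ (a k))) (r := fun k => rs (σ (a k))) (fun k => (hrpos _).le)
      (fun k => hdisc i _) (hc.comp ha.tendsto_atTop) (hr.comp ha.tendsto_atTop)
      (tlu_comp hFσ ha.tendsto_atTop) hv hq hp hvw hw
  · exact disc_subset_clus hC hL i (φ := fun k => u i (s i (σ k)) + 1)
      (fun k => (hrpos (σ k)).le) (fun k => hdisc i _) hc hr hFσ hw

end Vale.Agent.P116.Pack.Koebe
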