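import Vale.Agent.P116.Pack.Koebe.Collar

/-!
P116 finite Koebe: the stages of the iteration, the composed roundings, and cluster sets at the
stages.
-/

noncomputable section

namespace Vale.Agent.P116.Pack.Koebe

open Set Filter Metric Function
open scoped Topology

variable {n : ℕ}

/-- The fixed data: a finitely connected domain with collars of its complementary components, and
the two basic facts used to build the iteration. -/
structure Init (n : ℕ) where
  U : Set ℂ
  E : Fin n → Set ℂ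
  col : Fin n → ℂ → ℂ
  ρ : ℝ
  hn : 0 < n
  dom : Dom U
  compl : Uᶜ = ⋃ j, E j
  one_lt : 1 < ρ
  collar : ∀ j, Collar ρ (E j) (col j)
  col_mem : ∀ j, MapsTo (col j) (annu ρ) U
  pre : ∀ j, IsPreconnected (E j)
  nontriv : ∀ j, (E j).Nontrivial
  disj : Pairwise fun i j => Disjoint (nb ρ (E i) (col i)) (nb ρ (E j) (col j))
  bdd : ∃ R : ℝ, ∀ j, nb ρ (E j) (col j) ⊆ closedBall 0 R
  area : AreaBoundStmt
  round : RoundStmt

/-- A stage: a map with the images of the complementary components and their collars. -/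
structure St (D : Init n) where
  f : ℂ → ℂ
  K : Fin n → Set ℂ
  ext : IsExt D.U f
  compl : (f '' D.U)ᶜ = ⋃ j, K j
  collar : ∀ j, Collar D.ρ (K j) (fun ζ => f (D.col j ζ))
  pre : ∀ j, IsPreconnected (K j)
  nontriv : ∀ j, (K j).Nontrivial
  disj : Pairwise fun i j =>
    Disjoint (nb D.ρ (K i) (fun ζ => f (D.col i ζ))) (nb D.ρ (K j) (fun ζ => f (D.col j ζ)))

variable {D : Init n}

/-- The complement of all continua but one. -/
def off (K : Fin n → Set ℂ) (i : Fin n) : Set ℂ := (⋃ j ∈ {j | j ≠ i}, K j)ᶜ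

lemma mem_off {K : Fin n → Set ℂ} {i : Fin n} {z : ℂ} :
    z ∈ off K i ↔ ∀ j, j ≠ i → z ∉ K j := by
  simp [off]

lemma St.K_compact (S : St D) (j : Fin n) : IsCompact (S.K j) := (S.collar j).compact

lemma St.K_disj (S : St D) : Pairwise fun i j => Disjoint (S.K i) (S.K j) :=
  fun _ _ h => (S.disj h).mono subset_union_left subset_union_left

lemma St.notMem_K (S : St D) {z : ℂ} (hz : z ∈ D.U) (j : Fin n) : S.f z ∉ S.K j := fun h => by
  have : S.f z ∈ (S.f '' D.U)ᶜ := S.compl.symm ▸ mem_iUnion.2 ⟨j, h⟩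
  exact this ⟨z, hz, rfl⟩

lemma St.mem_image_iff (S : St D) {w : ℂ} : w ∈ S.f '' D.U ↔ ∀ j, w ∉ S.K j := by
  conv_lhs => rw [← compl_compl (S.f '' D.U), S.compl]
  simp

lemma St.dom_image (S : St D) : Dom (S.f '' D.U) := by
  refine ⟨?_, D.dom.isPreconnected.image _ S.ext.diff.continuousOn, ?_⟩
  · exact isOpen_image_of_injOn D.dom.isOpen S.ext.diff S.ext.injOn
  · rw [S.compl]
    exact isCompact_iUnion S.K_compact

lemma St.off_isOpen (S : St D) (i : Fin n) : IsOpen (off S.K i) :=
  ((toFinite _).isCompact_biUnion fun j _ => S.K_compact j).isClosed.isOpen_compl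

lemma St.nb_subset_off (S : St D) (i : Fin n) :
    nb D.ρ (S.K i) (fun ζ => S.f (D.col i ζ)) ⊆ off S.K i := fun _ hz => mem_off.2 fun _ hj hzj =>
  disjoint_left.1 (S.disj hj) (Or.inl hzj) hz

lemma St.image_subset_off (S : St D) (i : Fin n) : S.f '' D.U ⊆ off S.K i := fun _ hz =>
  mem_off.2 fun j _ => S.mem_image_iff.1 hz j

lemma St.mem_image_of_off (S : St D) {i : Fin n} {z : ℂ} (hz : z ∈ off S.K i) (hz' : z ∉ S.K i) :
    z ∈ S.f '' D.U :=
  S.mem_image_iff.2 fun j hj => by
    by_cases h : j = i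
    · exact hz' (h ▸ hj)
    · exact mem_off.1 hz j h hj

/-- One rounding. -/
structure Step (S : St D) (i : Fin n) where
  h : ℂ → ℂ
  c : ℂ
  r : ℝ
  next : St D
  pos : 0 < r
  ext : IsExt (S.K i)ᶜ h
  himg : h '' (S.K i)ᶜ = (closedBall c r)ᶜ
  f_eq : next.f = fun z => h (S.f z)
  K_self : next.K i = closedBall c r
  K_ne : ∀ j, j ≠ i → next.K j = h '' S.K j

lemma exists_step (S : St D) (i : Fin n) : Nonempty (Step S i) := by
  have hKc := S.K_compact i
  have hpc : IsPreconnected (S.K i)ᶜ := by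
    refine isPreconnected_compl_piece S.K_compact S.pre (fun j => (S.nontriv j).nonempty)
      S.K_disj ?_ i
    rw [← S.compl, compl_compl]
    exact S.dom_image.isPreconnected
  obtain ⟨h, c, r, hr, hext, himg⟩ :=
    D.round (S.K i) hKc ⟨(S.nontriv i).nonempty, S.pre i⟩ (S.nontriv i) hpc
  have hfU : MapsTo S.f D.U (S.K i)ᶜ := fun z hz => S.notMem_K hz i
  have hoff : ∀ w, w ∈ (S.K i)ᶜ → h w ∉ closedBall c r := fun w hw =>
    (himg ▸ mem_image_of_mem h hw : h w ∈ (closedBall c r)ᶜ)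
  let K' : Fin n → Set ℂ := fun j => if j = i then closedBall c r else h '' S.K j
  have hK'ne : ∀ j, j ≠ i → K' j = h '' S.K j := fun j hj => if_neg hj
  have hK'i : K' i = closedBall c r := if_pos rfl
  have hsub : ∀ j, j ≠ i → nb D.ρ (S.K j) (fun ζ => S.f (D.col j ζ)) ⊆ (S.K i)ᶜ :=
    fun j hj z hz hzi => disjoint_left.1 (S.disj hj) hz (Or.inl hzi)
  have hring : (fun ζ => S.f (D.col i ζ)) '' annu D.ρ ⊆ (S.K i)ᶜ := fun z hz hzi =>
    disjoint_left.1 (S.collar i).disj hzi hz
  have hcol : ∀ j, Collar D.ρ (K' j) (fun ζ => h (S.f (D.col j ζ))) := by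
    intro j
    by_cases hj : j = i
    · subst hj
      rw [hK'i]
      exact (S.collar j).push D.area hext himg (isCompact_closedBall c r)
    · rw [hK'ne j hj]
      exact (S.collar j).image hKc.isClosed.isOpen_compl (confMap_of_diff hext.diff hext.injOn)
        (hsub j hj)
  have hnb : ∀ j, j ≠ i → nb D.ρ (K' j) (fun ζ => h (S.f (D.col j ζ))) =
      h '' nb D.ρ (S.K j) (fun ζ => S.f (D.col j ζ)) := fun j hj => by
    rw [hK'ne j hj, ← nb_image]
  refine ⟨⟨h, c, r, ⟨fun z => h (S.f z), K', ⟨D.dom, hext.diff.comp S.ext.diff hfU,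
    fun x hx y hy hxy => S.ext.injOn hx hy (hext.injOn (hfU hx) (hfU hy) hxy), ?_⟩,
    ?_, hcol, ?_, ?_, ?_⟩, hr, hext, himg, rfl, hK'i, hK'ne⟩⟩
  · have := (hext.norm_inf.comp (isExt_tendsto_cocompact S.ext)).add S.ext.norm_inf
    rw [add_zero] at this
    refine this.congr fun z => ?_
    simp only [Function.comp_apply]
    ring
  · ext w
    simp only [mem_compl_iff, mem_iUnion]
    constructor
    · intro hw
      by_cases hwD : w ∈ closedBall c r
      · exact ⟨i, hK'i.symm ▸ hwD⟩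
      obtain ⟨u, hu, rfl⟩ : w ∈ h '' (S.K i)ᶜ := himg.symm ▸ hwD
      by_contra hne
      push Not at hne
      refine hw ?_
      have hu' : u ∈ S.f '' D.U := S.mem_image_iff.2 fun j hj => by
        by_cases hji : j = i
        · exact hu (hji ▸ hj)
        · exact hne j (hK'ne j hji ▸ mem_image_of_mem h hj)
      obtain ⟨z, hz, e⟩ := hu'
      exact ⟨z, hz, congrArg h e⟩
    · rintro ⟨j, hj⟩ ⟨z, hz, rfl⟩
      by_cases hji : j = i
      · subst hji
        rw [hK'i] at hj
        exact hoff _ (hfU hz) hj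
      · rw [hK'ne j hji] at hj
        obtain ⟨u, hu, he⟩ := hj
        rw [hext.injOn (hsub j hji (Or.inl hu)) (hfU hz) he] at hu
        exact S.notMem_K hz j hu
  · intro j
    by_cases hj : j = i
    · subst hj; rw [hK'i]; exact (convex_closedBall c r).isPreconnected
    · rw [hK'ne j hj]
      exact (S.pre j).image h (hext.diff.continuousOn.mono (subset_union_left.trans (hsub j hj)))
  · intro j
    by_cases hj : j = i
    · subst hj; rw [hK'i]
      refine ⟨c, mem_closedBall_self hr.le, c + r, ?_, by simp [hr.ne']⟩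
      simp [dist_eq_norm, abs_of_pos hr]
    · rw [hK'ne j hj]
      exact (S.nontriv j).image_of_injOn
        (hext.injOn.mono (subset_union_left.trans (hsub j hj)))
  · have key : ∀ j, j ≠ i → Disjoint (nb D.ρ (K' j) (fun ζ => h (S.f (D.col j ζ))))
        (nb D.ρ (K' i) (fun ζ => h (S.f (D.col i ζ)))) := by
      intro j hj
      rw [hnb j hj, show nb D.ρ (K' i) (fun ζ => h (S.f (D.col i ζ))) =
        closedBall c r ∪ h '' ((fun ζ => S.f (D.col i ζ)) '' annu D.ρ) by rw [nb, hK'i, image_image]]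
      refine disjoint_union_right.2 ⟨?_, ?_⟩
      · exact disjoint_left.2 fun w ⟨u, hu, he⟩ hw => hoff u (hsub j hj hu) (he ▸ hw)
      · refine disjoint_image_image fun x hx y hy hxy => ?_
        exact disjoint_left.1 (S.disj hj) hx
          (Or.inr (hext.injOn (hsub j hj hx) (hring hy) hxy ▸ hy))
    intro j k hjk
    by_cases hj : j = i
    · subst hj; exact (key k hjk.symm).symm
    by_cases hk : k = i
    · subst hk; exact key j hjk
    show Disjoint (nb _ _ _) (nb _ _ _)
    rw [hnb j hj, hnb k hk]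
    exact disjoint_image_image fun x hx y hy hxy =>
      disjoint_left.1 (S.disj hjk) hx (hext.injOn (hsub j hj hx) (hsub k hk hy) hxy ▸ hy)

/-- The component rounded at step `t`. -/
def Init.idx (D : Init n) (t : ℕ) : Fin n := ⟨t % n, Nat.mod_lt _ D.hn⟩

/-- The starting stage. -/
def Init.start (D : Init n) : St D where
  f := fun z => z
  K := D.E
  ext := ⟨D.dom, differentiableOn_id, fun _ _ _ _ h => h, by simp⟩
  compl := by rw [image_id']; exact D.compl
  collar := D.collar
  pre := D.pre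
  nontriv := D.nontriv
  disj := D.disj

/-- The stages of Koebe's iteration. -/
def seq (D : Init n) : ℕ → St D
  | 0 => D.start
  | t + 1 => ((exists_step (seq D t) (D.idx t)).some).next

/-- The rounding at step `t`. -/
def stp (D : Init n) (t : ℕ) : Step (seq D t) (D.idx t) := (exists_step _ _).some

lemma seq_succ (D : Init n) (t : ℕ) : seq D (t + 1) = (stp D t).next := rfl

/-- The rounded component is a disc. -/
lemma K_round (D : Init n) (t : ℕ) :
    (seq D (t + 1)).K (D.idx t) = closedBall (stp D t).c (stp D t).r := (stp D t).K_self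

/-- The composition of `k` roundings from stage `a`. -/
def comp (D : Init n) (a : ℕ) : ℕ → ℂ → ℂ
  | 0 => fun z => z
  | k + 1 => fun z => (stp D (a + k)).h (comp D a k z)

/-- Properties of the composed roundings away from the other continua. -/
structure CompProp (D : Init n) (a k : ℕ) (i : Fin n) : Prop where
  diff : DifferentiableOn ℂ (comp D a k) (off (seq D a).K i)
  injOn : InjOn (comp D a k) (off (seq D a).K i)
  maps : MapsTo (comp D a k) (off (seq D a).K i) (off (seq D (a + k)).K i)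
  image : comp D a k '' (seq D a).K i = (seq D (a + k)).K i
  comm : EqOn (fun z => comp D a k ((seq D a).f z)) (seq D (a + k)).f D.U

lemma compProp {D : Init n} {a : ℕ} {i : Fin n} :
    ∀ k : ℕ, (∀ s, a ≤ s → s < a + k → D.idx s ≠ i) → CompProp D a k i
  | 0, _ => ⟨differentiableOn_id, fun _ _ _ _ h => h, fun _ h => h, image_id' _, fun _ _ => rfl⟩
  | k + 1, hk => by
    have IH := compProp k fun s h1 h2 => hk s h1 (by omega)
    have hi : D.idx (a + k) ≠ i := hk _ (by omega) (by omega)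
    set s := a + k
    set T := stp D s
    have hsub : off (seq D s).K i ⊆ ((seq D s).K (D.idx s))ᶜ := fun z hz =>
      mem_off.1 hz _ hi
    refine ⟨T.ext.diff.comp IH.diff fun z hz => hsub (IH.maps hz),
      fun x hx y hy hxy => IH.injOn hx hy (T.ext.injOn (hsub (IH.maps hx)) (hsub (IH.maps hy)) hxy),
      fun z hz => ?_, ?_, fun z hz => ?_⟩
    · refine mem_off.2 fun j hj hzj => ?_
      have hw := hsub (IH.maps hz)
      change T.h (comp D a k z) ∈ T.next.K j at hzj
      by_cases hjs : j = D.idx s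
      · rw [hjs, T.K_self] at hzj
        have : T.h (comp D a k z) ∈ (closedBall T.c T.r)ᶜ := T.himg ▸ mem_image_of_mem _ hw
        exact this hzj
      · rw [T.K_ne j hjs] at hzj
        obtain ⟨u, hu, he⟩ := hzj
        have hu' : u ∈ ((seq D s).K (D.idx s))ᶜ := fun h =>
          disjoint_left.1 ((seq D s).K_disj hjs) hu h
        rw [T.ext.injOn hu' hw he] at hu
        exact mem_off.1 (IH.maps hz) j hj hu
    · change (fun z => T.h (comp D a k z)) '' _ = T.next.K i
      rw [T.K_ne i (Ne.symm hi), ← IH.image, image_image]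
    · change T.h (comp D a k ((seq D a).f z)) = T.next.f z
      rw [T.f_eq]
      exact congrArg T.h (IH.comm hz)

/-- The last step before `t` rounding the component `i`. -/
def last (t : ℕ) (i : Fin n) : ℕ := i + n * ((t - 1 - i) / n)

lemma last_spec (D : Init n) {t : ℕ} (ht : n ≤ t) (i : Fin n) :
    last t i < t ∧ t ≤ last t i + n ∧ D.idx (last t i) = i ∧
      ∀ s, last t i + 1 ≤ s → s < t → D.idx s ≠ i := by
  have hi := i.isLt
  have h1 := Nat.div_add_mod (t - 1 - i) n
  have h2 := Nat.mod_lt (t - 1 - i) (Nat.zero_lt_of_lt hi)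
  have hidx : (last t i) % n = i := by
    rw [last, Nat.add_mul_mod_self_left, Nat.mod_eq_of_lt hi]
  refine ⟨by unfold last; omega, by unfold last; omega, Fin.ext hidx, fun s hs hst he => ?_⟩
  have he' : s % n = i := congrArg Fin.val he
  have h3 := Nat.sub_mod_eq_zero_of_mod_eq (he'.trans hidx.symm)
  have h4 : s - last t i < n := by unfold last; omega
  rw [Nat.mod_eq_of_lt h4] at h3
  omega

lemma collar_congr {ρ : ℝ} {H : Set ℂ} {A B : ℂ → ℂ} (hC : Collar ρ H A)
    (h : EqOn A B (annu ρ)) : Collar ρ H B := by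
  have e : ∀ X ⊆ annu ρ, B '' X = A '' X := fun X hX => (image_congr fun x hx => h (hX hx)).symm
  refine ⟨hC.compact, ⟨hC.conf.1.congr h, hC.conf.2.imp (fun h' => h'.congr fun x hx => (h hx).symm)
    fun h' => h'.congr fun x hx => by rw [h hx]⟩, ?_, ?_, fun τ hτ hτρ => ?_⟩
  · rw [e _ subset_rfl]; exact hC.disj
  · rw [nb, e _ subset_rfl]; exact hC.isOpen
  · rw [e _ (capA_subset hτρ), e _ (annu_mono hτρ.le)]
    exact hC.part τ hτ hτρ

lemma comps_iUnion {K : Fin n → Set ℂ} (hc : ∀ j, IsCompact (K j))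
    (hp : ∀ j, IsPreconnected (K j)) (hne : ∀ j, (K j).Nonempty)
    (hd : Pairwise (fun i j => Disjoint (K i) (K j))) : comps (⋃ j, K j) = range K := by
  ext X
  constructor
  · rintro ⟨x, hx, rfl⟩
    obtain ⟨j, hj⟩ := mem_iUnion.1 hx
    exact ⟨j, (connectedComponentIn_iUnion hc hp hd hj).symm⟩
  · rintro ⟨j, rfl⟩
    obtain ⟨x, hx⟩ := hne j
    exact ⟨x, mem_iUnion.2 ⟨j, hx⟩, connectedComponentIn_iUnion hc hp hd hx⟩

/-- Cluster sets read off from collars. -/
lemma bclus_subset_collar {ρ : ℝ} {U E H : Set ℂ} {A f : ℂ → ℂ} (hρ : 1 < ρ)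
    (hE : Collar ρ E A) (hH : Collar ρ H (fun ζ => f (A ζ))) (hU : U ⊆ Eᶜ) :
    bclus U f E ⊆ H := by
  rintro w ⟨p, hp, hw⟩
  by_contra hwH
  obtain ⟨τ, hτ, hτρ, hsub⟩ := hH.exists_subset hρ (isOpen_compl_singleton (x := w))
    (subset_compl_singleton_iff.2 hwH)
  refine (subset_compl_singleton_iff.1 hsub) ((hH.part τ hτ hτρ).1.isClosed.closure_subset ?_)
  refine hw.mem_closure_of_mem _ (mem_map.2 ?_)
  filter_upwards [(hE.eventually_mem hτ hτρ hp).filter_mono (nhdsWithin_mono p hU)] with z hz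
  obtain ⟨ζ, hζ, rfl⟩ := hz
  exact Or.inr ⟨ζ, annu_subset_capA τ hζ, rfl⟩

/-- The cluster sets of a map carrying collars to collars. -/
lemma clus_eq_collar (hC : ClusStmt) {ρ : ℝ} (hρ : 1 < ρ) {U : Set ℂ} {f : ℂ → ℂ}
    {E K : Fin n → Set ℂ} {A : Fin n → ℂ → ℂ} (hf : IsExt U f) (hU : Uᶜ = ⋃ j, E j)
    (hfU : (f '' U)ᶜ = ⋃ j, K j) (hE : ∀ j, Collar ρ (E j) (A j))
    (hK : ∀ j, Collar ρ (K j) (fun ζ => f (A j ζ))) (hp : ∀ j, IsPreconnected (E j))
    (hne : ∀ j, (E j).Nonempty) (hdE : Pairwise fun i j => Disjoint (E i) (E j))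
    (hd : Pairwise fun i j => Disjoint (K i) (K j)) (hpK : ∀ j, IsPreconnected (K j)) (j : Fin n) :
    clus U f (E j) = K j := by
  have hsub : ∀ k, clus U f (E k) ⊆ K k := by
    intro k w hw
    obtain ⟨hwU, v, hv1, hv2⟩ := hw
    have hv : v ∈ K k := bclus_subset_collar hρ (hE k) (hK k)
      (fun z hz hzk => (hU ▸ mem_iUnion.2 ⟨k, hzk⟩ : z ∈ Uᶜ) hz) hv2
    have hw' : w ∈ (f '' U)ᶜ := hwU
    rw [hfU] at hw' hv1
    obtain ⟨l, hl⟩ := mem_iUnion.1 hw'
    rw [connectedComponentIn_iUnion (fun l => (hK l).compact) hpK hd hl] at hv1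
    by_cases hlk : l = k
    · exact hlk ▸ hl
    · exact (disjoint_left.1 (hd hlk) hv1 hv).elim
  refine Subset.antisymm (hsub j) fun w hw => ?_
  obtain ⟨-, hun, -⟩ := hC U f hf
  have h1 : w ∈ (f '' U)ᶜ := hfU ▸ mem_iUnion.2 ⟨j, hw⟩
  rw [hun, mem_iUnion₂] at h1
  obtain ⟨X, hX, hwX⟩ := h1
  rw [hU, comps_iUnion (fun k => (hE k).compact) hp hne hdE] at hX
  obtain ⟨k, rfl⟩ := hX
  by_cases hk : k = j
  · exact hk ▸ hwX
  · exact (disjoint_left.1 (hd hk) (hsub k hwX) hw).elim

lemma St.clus_eq (hC : ClusStmt) (S : St D) (j : Fin n) : clus D.U S.f (D.E j) = S.K j :=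
  clus_eq_collar hC D.one_lt S.ext D.compl S.compl D.collar S.collar D.pre
    (fun k => (D.nontriv k).nonempty) D.start.K_disj S.K_disj S.pre j

lemma St.inverse_ext (S : St D) : IsExt (S.f '' D.U) (invFunOn S.f D.U) :=
  isExt_inverse D.area S.ext S.dom_image

lemma St.inverse_image (S : St D) : invFunOn S.f D.U '' (S.f '' D.U) = D.U := by
  rw [image_image]
  exact (image_congr fun x hx => S.ext.injOn.leftInvOn_invFunOn hx).trans (image_id' _)

lemma St.clus_inv_eq (hC : ClusStmt) (S : St D) (j : Fin n) :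
    clus (S.f '' D.U) (invFunOn S.f D.U) (S.K j) = D.E j :=
  clus_eq_collar hC D.one_lt S.inverse_ext S.compl (by rw [S.inverse_image, D.compl]) S.collar
    (fun k => collar_congr (D.collar k) fun _ hζ =>
      (S.ext.injOn.leftInvOn_invFunOn (D.col_mem k hζ)).symm)
    S.pre (fun k => (S.nontriv k).nonempty) S.K_disj D.start.K_disj D.pre j

end Vale.Agent.P116.Pack.Koebe
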