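import Vale.Agent.P116.Pack.Spec
import Vale.Agent.P142.Area

/-!
P116 finite Koebe: univalent and anti-univalent maps, inverses, reflection in circles, and the
topology of finitely many continua with connected complement.
-/

noncomputable section

namespace Vale.Agent.P116.Pack.Koebe

open Set Filter Metric Function
open scoped Topology ComplexConjugate

variable {U V W : Set ℂ} {f A P : ℂ → ℂ}

/-- An injective holomorphic map is open. -/
lemma isOpen_image_of_injOn (hV : IsOpen V) (hf : DifferentiableOn ℂ f V) (hi : InjOn f V) :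
    IsOpen (f '' V) := by
  rw [isOpen_iff_mem_nhds]
  rintro _ ⟨z, hz, rfl⟩
  have hd : HasStrictDerivAt f (deriv f z) z :=
    (hf.analyticAt (hV.mem_nhds hz)).hasStrictDerivAt
  rw [← hd.map_nhds_eq (P142.Area.deriv_ne_zero_of_injOn hV hf hi hz)]
  exact image_mem_map (hV.mem_nhds hz)

/-- The inverse of an injective holomorphic map is holomorphic. -/
lemma differentiableOn_invFunOn (hV : IsOpen V) (hf : DifferentiableOn ℂ f V) (hi : InjOn f V) :
    DifferentiableOn ℂ (invFunOn f V) (f '' V) := by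
  rintro _ ⟨z, hz, rfl⟩
  have hgz : invFunOn f V (f z) = z := hi.leftInvOn_invFunOn hz
  have hcont : ContinuousAt (invFunOn f V) (f z) := by
    intro N hN
    rw [hgz] at hN
    obtain ⟨N', hN', hN'o, hzN'⟩ := _root_.mem_nhds_iff.1 hN
    have hop : IsOpen (f '' (N' ∩ V)) := isOpen_image_of_injOn (hN'o.inter hV)
      (hf.mono inter_subset_right) (hi.mono inter_subset_right)
    refine mem_map.2 (mem_of_superset (hop.mem_nhds ⟨z, ⟨hzN', hz⟩, rfl⟩) ?_)
    rintro _ ⟨x, ⟨hx, hxV⟩, rfl⟩
    simp only [mem_preimage, hi.leftInvOn_invFunOn hxV]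
    exact hN' hx
  refine DifferentiableAt.differentiableWithinAt ?_
  refine (HasDerivAt.of_local_left_inverse hcont (f := f) (f' := deriv f z) ?_
    (P142.Area.deriv_ne_zero_of_injOn hV hf hi hz) ?_).differentiableAt
  · rw [hgz]
    exact (hf.differentiableAt (hV.mem_nhds hz)).hasDerivAt
  · filter_upwards [(isOpen_image_of_injOn hV hf hi).mem_nhds ⟨z, hz, rfl⟩] with w hw
    exact invFunOn_eq hw

lemma confMap_mono (h : ConfMap V A) (hW : W ⊆ V) : ConfMap W A :=
  ⟨h.1.mono hW, h.2.imp (·.mono hW) (·.mono hW)⟩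

lemma confMap_of_diff (hf : DifferentiableOn ℂ f V) (hi : InjOn f V) : ConfMap V f :=
  ⟨hi, Or.inl hf⟩

lemma confMap_continuousOn (h : ConfMap V A) : ContinuousOn A V := by
  rcases h.2 with h' | h'
  · exact h'.continuousOn
  · have := Complex.continuous_conj.comp_continuousOn h'.continuousOn
    simpa [Function.comp_def] using this

lemma confMap_isOpen_image (h : ConfMap V A) (hV : IsOpen V) : IsOpen (A '' V) := by
  rcases h.2 with h' | h'
  · exact isOpen_image_of_injOn hV h' h.1
  · have hi : InjOn (fun z => conj (A z)) V := fun x hx y hy hxy =>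
      h.1 hx hy (by simpa using congrArg (starRingEnd ℂ) hxy)
    have e : A '' V = (fun w : ℂ => conj w) ⁻¹' ((fun z => conj (A z)) '' V) := by
      ext w
      constructor
      · rintro ⟨z, hz, rfl⟩
        exact ⟨z, hz, rfl⟩
      · rintro ⟨z, hz, hzw⟩
        exact ⟨z, hz, by simpa using congrArg (starRingEnd ℂ) hzw⟩
    rw [e]
    exact (isOpen_image_of_injOn hV h' hi).preimage Complex.continuous_conj

lemma confMap_comp (hP : ConfMap W P) (hA : ConfMap V A) (hV : IsOpen V) (hW : IsOpen W)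
    (hm : MapsTo A V W) : ConfMap V (fun z => P (A z)) := by
  refine ⟨fun x hx y hy hxy => hA.1 hx hy (hP.1 (hm hx) (hm hy) hxy), ?_⟩
  have hflip : ∀ {Q : ℂ → ℂ} {z : ℂ}, DifferentiableAt ℂ Q (A z) →
      DifferentiableAt ℂ (fun w => conj (Q (conj w))) (conj (A z)) := fun hQ => by
    simpa [Function.comp_def] using hQ.conj_conj
  rcases hA.2 with hA' | hA' <;> rcases hP.2 with hP' | hP'
  · exact Or.inl (hP'.comp hA' hm)
  · exact Or.inr (hP'.comp hA' hm)
  · refine Or.inr fun z hz => DifferentiableAt.differentiableWithinAt ?_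
    have h1 := hflip (hP'.differentiableAt (hW.mem_nhds (hm hz)))
    have h2 := h1.comp z (hA'.differentiableAt (hV.mem_nhds hz))
    simpa [Function.comp_def] using h2
  · refine Or.inl fun z hz => DifferentiableAt.differentiableWithinAt ?_
    have h1 := hflip (hP'.differentiableAt (hW.mem_nhds (hm hz)))
    have h2 := h1.comp z (hA'.differentiableAt (hV.mem_nhds hz))
    simpa [Function.comp_def] using h2

lemma circInv_center (c : ℂ) (r : ℝ) : circInv c r c = c := by simp [circInv]

lemma dist_circInv (c : ℂ) (r : ℝ) (z : ℂ) : dist (circInv c r z) c = r ^ 2 / dist z c := by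
  rw [dist_eq_norm, circInv, add_sub_cancel_left, norm_div, norm_pow, Complex.norm_conj,
    Complex.norm_real, Real.norm_eq_abs, sq_abs, dist_eq_norm]

lemma circInv_circInv {c : ℂ} {r : ℝ} (hr : 0 < r) (z : ℂ) :
    circInv c r (circInv c r z) = z := by
  have hr' : (r : ℂ) ^ 2 ≠ 0 := pow_ne_zero 2 (by exact_mod_cast hr.ne')
  rw [circInv, circInv, add_sub_cancel_left]
  rw [map_div₀, map_pow, Complex.conj_ofReal, Complex.conj_conj, div_div_eq_mul_div,
    mul_div_cancel_left₀ _ hr', add_sub_cancel]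

lemma circInv_ne {c z : ℂ} {r : ℝ} (hr : 0 < r) (hz : z ≠ c) : circInv c r z ≠ c := fun h =>
  hz (by rw [← circInv_circInv hr z, h, circInv_center])

lemma injective_circInv {c : ℂ} {r : ℝ} (hr : 0 < r) : Injective (circInv c r) := fun x y h => by
  rw [← circInv_circInv hr x, h, circInv_circInv hr y]

lemma lt_dist_circInv {c z : ℂ} {r : ℝ} (hr : 0 < r) (hz : z ≠ c) :
    r < dist (circInv c r z) c ↔ dist z c < r := by
  have hd : 0 < dist z c := dist_pos.2 hz
  rw [dist_circInv, lt_div_iff₀ hd, sq, mul_lt_mul_iff_right₀ hr]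

lemma circInv_mem_ball {c z : ℂ} {r : ℝ} (hr : 0 < r) (hz : r < dist z c) :
    circInv c r z ∈ ball c r := by
  rw [mem_ball, dist_circInv, div_lt_iff₀ (hr.trans hz), sq]
  exact mul_lt_mul_of_pos_left hz hr

lemma differentiableAt_conj_circInv {c : ℂ} {r : ℝ} {z : ℂ} (hz : z ≠ c) :
    DifferentiableAt ℂ (fun w => conj (circInv c r w)) z := by
  have : (fun w => conj (circInv c r w)) = fun w => conj c + (r : ℂ) ^ 2 / (w - c) := by
    funext w
    simp [circInv, map_div₀]
  rw [this]
  exact (differentiableAt_const _).add ((differentiableAt_const _).div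
    (differentiableAt_id.sub_const c) (sub_ne_zero.2 hz))

lemma confMap_circInv {c : ℂ} {r : ℝ} (hr : 0 < r) : ConfMap ({c}ᶜ : Set ℂ) (circInv c r) :=
  ⟨(injective_circInv hr).injOn,
    Or.inr fun _ hz => (differentiableAt_conj_circInv hz).differentiableWithinAt⟩

lemma dom_nonempty (h : Dom U) : U.Nonempty := by
  by_contra hne
  rw [not_nonempty_iff_eq_empty] at hne
  have := h.compact_compl
  rw [hne, compl_empty] at this
  exact noncompact_univ ℂ this

lemma dom_exists_bound (h : Dom U) : ∃ R : ℝ, 0 < R ∧ Uᶜ ⊆ closedBall 0 R := by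
  obtain ⟨R, hR⟩ := h.compact_compl.isBounded.subset_closedBall 0
  exact ⟨max R 1, lt_max_of_lt_right one_pos,
    hR.trans (closedBall_subset_closedBall (le_max_left _ _))⟩

lemma dom_eventually_mem (h : Dom U) : ∀ᶠ z in cocompact ℂ, z ∈ U := by
  have := h.compact_compl.compl_mem_cocompact
  rwa [compl_compl] at this

lemma eventually_le_norm (M : ℝ) : ∀ᶠ z : ℂ in cocompact ℂ, M ≤ ‖z‖ :=
  tendsto_norm_cocompact_atTop.eventually (eventually_ge_atTop M)

lemma isExt_tendsto_cocompact (h : IsExt U f) : Tendsto f (cocompact ℂ) (cocompact ℂ) := by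
  have h1 : Tendsto (fun z => ‖f z‖) (cocompact ℂ) atTop := tendsto_atTop.2 fun M => by
    filter_upwards [eventually_le_norm (M + 1),
      h.norm_inf.eventually (ball_mem_nhds 0 one_pos)] with z hz1 hz2
    rw [dist_zero_right] at hz2
    linarith [norm_sub_norm_le z (f z), norm_sub_rev z (f z)]
  rw [← Metric.cobounded_eq_cocompact] at h1 ⊢
  exact tendsto_norm_atTop_iff_cobounded.1 h1

/-- The inverse of a normalised univalent map. -/
lemma isExt_inverse (hA : AreaBoundStmt) (h : IsExt U f) (hd : Dom (f '' U)) :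
    IsExt (f '' U) (invFunOn f U) := by
  refine ⟨hd, differentiableOn_invFunOn h.dom.isOpen h.diff h.injOn,
    fun x hx y hy hxy => ?_, ?_⟩
  · obtain ⟨a, ha, rfl⟩ := hx
    obtain ⟨b, hb, rfl⟩ := hy
    rw [h.injOn.leftInvOn_invFunOn ha, h.injOn.leftInvOn_invFunOn hb] at hxy
    rw [hxy]
  · rw [Metric.tendsto_nhds]
    intro ε hε
    obtain ⟨R, hR, hUR⟩ := dom_exists_bound h.dom
    obtain ⟨C, hC, hb⟩ := hA
    have hb2 := (hb U f R hR h hUR).2
    have hev := Metric.tendsto_nhds.1 h.norm_inf ε hε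
    rw [← Metric.cobounded_eq_cocompact,
      (hasBasis_cobounded_compl_closedBall (0 : ℂ)).eventually_iff] at hev
    obtain ⟨M, -, hM⟩ := hev
    filter_upwards [dom_eventually_mem hd, eventually_le_norm (C * (M + R) + 1)] with w hw hwn
    obtain ⟨z, hz, rfl⟩ := hw
    have hzM : z ∈ (closedBall (0 : ℂ) M)ᶜ := fun hzM => by
      rw [mem_closedBall_zero_iff] at hzM
      have := (hb2 z hz).trans (mul_le_mul_of_nonneg_left (add_le_add hzM le_rfl) (by linarith))
      linarith
    have := hM hzM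
    rw [h.injOn.leftInvOn_invFunOn hz, dist_zero_right, norm_sub_rev]
    rwa [dist_zero_right] at this

variable {ι : Type*} {K : ι → Set ℂ}

/-- The complement of one of finitely many continua that do not separate the plane. -/
lemma isPreconnected_compl_piece [Finite ι] (hc : ∀ j, IsCompact (K j))
    (hp : ∀ j, IsPreconnected (K j)) (hne : ∀ j, (K j).Nonempty)
    (hd : Pairwise (fun i j => Disjoint (K i) (K j))) (hV : IsPreconnected (⋃ j, K j)ᶜ) (i : ι) :
    IsPreconnected (K i)ᶜ := by
  obtain ⟨v, hv⟩ : (⋃ j, K j)ᶜ.Nonempty := by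
    by_contra h
    rw [not_nonempty_iff_eq_empty, compl_empty_iff] at h
    exact noncompact_univ ℂ (h ▸ isCompact_iUnion hc)
  have hcon : ∀ j, IsPreconnected ((⋃ j, K j)ᶜ ∪ K j) := by
    intro j
    obtain ⟨x, hx⟩ : (frontier (K j)).Nonempty := nonempty_frontier_iff.2
      ⟨hne j, (hc j).ne_univ⟩
    have hxj : x ∈ K j := (hc j).isClosed.frontier_subset hx
    have hxcl : x ∈ closure (⋃ j, K j)ᶜ := by
      have hO : IsOpen (⋃ k ∈ {k | k ≠ j}, K k)ᶜ :=
        ((toFinite _).isCompact_biUnion fun k _ => hc k).isClosed.isOpen_compl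
      have hxO : x ∈ (⋃ k ∈ {k | k ≠ j}, K k)ᶜ := by
        simp only [mem_compl_iff, mem_iUnion₂, not_exists]
        exact fun k hk hxk => disjoint_left.1 (hd hk) hxk hxj
      have hx' : x ∈ closure (K j)ᶜ := frontier_compl (K j) ▸ hx |>.1
      refine mem_closure_iff.2 fun O hOo hxO' => ?_
      obtain ⟨y, ⟨hyO, hy2⟩, hyj⟩ := mem_closure_iff.1 hx' _ (hOo.inter hO) ⟨hxO', hxO⟩
      refine ⟨y, hyO, ?_⟩
      simp only [mem_compl_iff, mem_iUnion, not_exists] at hy2 ⊢
      intro k hk
      by_cases hkj : k = j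
      · exact hyj (hkj ▸ hk)
      · exact hy2 k hkj hk
    have h1 : IsPreconnected ((⋃ j, K j)ᶜ ∪ {x}) := hV.subset_closure subset_union_left
      (union_subset subset_closure (singleton_subset_iff.2 hxcl))
    have h2 := IsPreconnected.union x (Or.inr (mem_singleton x)) hxj h1 (hp j)
    rwa [union_assoc, union_eq_self_of_subset_left (singleton_subset_iff.2 hxj)] at h2
  have e : (K i)ᶜ = (⋃ j, K j)ᶜ ∪ ⋃ j : {j // j ≠ i}, ((⋃ j, K j)ᶜ ∪ K j) := by
    ext z
    simp only [mem_compl_iff, mem_union, mem_iUnion, Subtype.exists, not_exists]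
    constructor
    · intro hz
      by_cases h : ∃ j, z ∈ K j
      · obtain ⟨j, hj⟩ := h
        exact Or.inr ⟨j, fun e => hz (e ▸ hj), Or.inr hj⟩
      · exact Or.inl fun j hj => h ⟨j, hj⟩
    · rintro (hz | ⟨j, hji, hz | hz⟩) hzi
      · exact hz i hzi
      · exact hz i hzi
      · exact disjoint_left.1 (hd hji) hz hzi
  rw [e]
  rcases isEmpty_or_nonempty {j // j ≠ i} with hem | hnem
  · simpa using hV
  · refine hV.union v hv ?_ (isPreconnected_iUnion ⟨v, ?_⟩ fun j => hcon j)
    · exact mem_iUnion.2 ⟨hnem.some, Or.inl hv⟩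
    · exact mem_iInter.2 fun j => Or.inl hv

/-- The components of a union of finitely many disjoint continua. -/
lemma connectedComponentIn_iUnion [Finite ι] (hc : ∀ j, IsCompact (K j))
    (hp : ∀ j, IsPreconnected (K j)) (hd : Pairwise (fun i j => Disjoint (K i) (K j)))
    {i : ι} {x : ℂ} (hx : x ∈ K i) : connectedComponentIn (⋃ j, K j) x = K i := by
  refine Subset.antisymm ?_ ((hp i).subset_connectedComponentIn hx (subset_iUnion K i))
  intro y hy
  by_contra hyi
  have hsub := connectedComponentIn_subset (⋃ j, K j) x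
  obtain ⟨z, -, hzi, hzo⟩ := isPreconnected_closed_iff.1
    (isPreconnected_connectedComponentIn (F := ⋃ j, K j) (x := x)) (K i) (⋃ j : {j // j ≠ i}, K j)
    (hc i).isClosed (isCompact_iUnion fun j => hc _).isClosed
    (fun z hz => by
      obtain ⟨j, hj⟩ := mem_iUnion.1 (hsub hz)
      by_cases h : j = i
      · exact Or.inl (h ▸ hj)
      · exact Or.inr (mem_iUnion.2 ⟨⟨j, h⟩, hj⟩))
    ⟨x, mem_connectedComponentIn (mem_iUnion.2 ⟨i, hx⟩), hx⟩
    (by
      obtain ⟨j, hj⟩ := mem_iUnion.1 (hsub hy)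
      exact ⟨y, hy, mem_iUnion.2 ⟨⟨j, fun h => hyi (h ▸ hj)⟩, hj⟩⟩)
  obtain ⟨j, hj⟩ := mem_iUnion.1 hzo
  exact disjoint_left.1 (hd j.2) hj hzi

end Vale.Agent.P116.Pack.Koebe
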